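import Crest.Agent.X212.Pic56.Line
import Crest.Agent.X212.Pj41.Sm

/-!
# X212 / Pic56 / Mat (helper56): rank one hermitian projector fields, continuous ⇒ smooth

* `Rk1 p` : `p = e eᴴ`, `|e| = 1`;  `Rk1.of_trace`, `Rk1.kron`, `Rk1.conj`;
* `clm p` : the matrix as an operator, `isLine_clm`;
* `exists_smooth_sec` : a continuous nowhere zero section of a smooth projector field can be smoothed;
* `LIso I p q u` : smooth partial isometry;  `exists_liso` : from a continuous nowhere zero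
  `m = q m p`;  `exists_unit_frame` : smooth unit frame of a continuously framed line.
-/

set_option autoImplicit false
set_option linter.unusedSectionVars false

open Set Function Filter Matrix
open scoped Topology ContDiff Manifold ComplexOrder Kronecker
open Crest.Agent.X212.Pj41

namespace Crest.Agent.X212.Pic56

noncomputable section

variable {κ l : Type*} [Fintype κ] [Fintype l]

/-- a rank one hermitian projector -/
def Rk1 (p : Matrix κ κ ℂ) : Prop := ∃ e : κ → ℂ, star e ⬝ᵥ e = 1 ∧ p = vecMulVec e (star e)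

theorem vmv_mulVec' (u : l → ℂ) (v w : κ → ℂ) : vecMulVec u v *ᵥ w = (v ⬝ᵥ w) • u := by
  ext i
  simp [vecMulVec_apply, mulVec, dotProduct, Finset.mul_sum, mul_comm, mul_left_comm]

theorem vmv_mulVec (u v w : κ → ℂ) : vecMulVec u v *ᵥ w = (v ⬝ᵥ w) • u := vmv_mulVec' u v w

theorem vmv_ct (u : l → ℂ) (v : κ → ℂ) : (vecMulVec u (star v))ᴴ = vecMulVec v (star u) := by
  ext i j
  simp [vecMulVec_apply, mul_comm]

theorem star_dot_pos {v : κ → ℂ} (h : v ≠ 0) : 0 < (star v ⬝ᵥ v).re ∧ (star v ⬝ᵥ v).im = 0 := by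
  have := dotProduct_star_self_pos_iff.2 h
  rw [Complex.pos_iff] at this
  exact ⟨this.1, this.2.symm⟩

/-- the length of a vector -/
def len (v : κ → ℂ) : ℝ := √(star v ⬝ᵥ v).re

theorem len_pos {v : κ → ℂ} (h : v ≠ 0) : 0 < len v := Real.sqrt_pos.2 (star_dot_pos h).1

theorem len_sq {v : κ → ℂ} (h : v ≠ 0) : (len v : ℂ) * len v = star v ⬝ᵥ v := by
  rw [← Complex.ofReal_mul, len, Real.mul_self_sqrt (star_dot_pos h).1.le]
  exact Complex.ext rfl (by simp [(star_dot_pos h).2])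

theorem unit_dot {v : κ → ℂ} (h : v ≠ 0) :
    star (((len v : ℂ))⁻¹ • v) ⬝ᵥ (((len v : ℂ))⁻¹ • v) = 1 := by
  have h1 : (len v : ℂ) ≠ 0 := Complex.ofReal_ne_zero.2 (len_pos h).ne'
  rw [star_smul, smul_dotProduct, dotProduct_smul, ← len_sq h]
  simp only [star_inv₀, RCLike.star_def, Complex.conj_ofReal, smul_eq_mul]
  field_simp

namespace Rk1

variable {p : Matrix κ κ ℂ} {q : Matrix l l ℂ}

theorem herm (h : Rk1 p) : pᴴ = p := by
  obtain ⟨e, -, rfl⟩ := h
  exact vmv_ct e e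

theorem idem (h : Rk1 p) : p * p = p := by
  obtain ⟨e, h, rfl⟩ := h
  rw [vecMulVec_mul_vecMulVec, h, one_smul]

theorem trace_eq (h : Rk1 p) : p.trace = 1 := by
  obtain ⟨e, h, rfl⟩ := h
  rw [trace_vecMulVec, dotProduct_comm, h]

/-- a rank one projector is spanned by any of its unit vectors -/
theorem eq_of_unit (h : Rk1 p) {v : κ → ℂ} (hv : p *ᵥ v = v) (h1 : star v ⬝ᵥ v = 1) :
    p = vecMulVec v (star v) := by
  obtain ⟨e, he, rfl⟩ := h
  rw [vmv_mulVec] at hv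
  set c := star e ⬝ᵥ v
  have h2 : star c * c = 1 := by
    rw [← hv, star_smul, smul_dotProduct, dotProduct_smul, he] at h1
    simpa using h1
  rw [← hv, star_smul]
  ext i j
  simp only [vecMulVec_apply, Pi.smul_apply, smul_eq_mul]
  linear_combination (-(e i * star e j)) * h2

theorem of_trace (h1 : pᴴ = p) (h2 : p * p = p) (h3 : p.trace = 1) : Rk1 p := by
  classical
  obtain ⟨w, hw⟩ : ∃ w, p *ᵥ w ≠ 0 := by
    by_contra h
    push Not at h
    have : p = 0 := by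
      ext i j
      simpa using congrFun (h (Pi.single j 1)) i
    simp [this] at h3
  set e := ((len (p *ᵥ w) : ℂ))⁻¹ • (p *ᵥ w) with he
  have h4 : star e ⬝ᵥ e = 1 := unit_dot hw
  have h5 : p *ᵥ e = e := by rw [he, mulVec_smul, mulVec_mulVec, h2]
  have h6 : p * vecMulVec e (star e) = vecMulVec e (star e) := by rw [mul_vecMulVec, h5]
  have h7 : vecMulVec e (star e) * p = vecMulVec e (star e) := by
    have := congrArg conjTranspose h6
    rwa [conjTranspose_mul, vmv_ct, h1] at this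
  refine ⟨e, h4, sub_eq_zero.1 (trace_conjTranspose_mul_self_eq_zero_iff.1 ?_)⟩
  rw [conjTranspose_sub, vmv_ct, h1, sub_mul, mul_sub, mul_sub, h2, h6, h7,
    vecMulVec_mul_vecMulVec, h4, one_smul, sub_self, sub_zero, trace_sub, h3, trace_vecMulVec,
    dotProduct_comm, h4, sub_self]

theorem kron (hp : Rk1 p) (hq : Rk1 q) : Rk1 (p ⊗ₖ q) := by
  classical
  refine of_trace ?_ ?_ ?_
  · rw [conjTranspose_kronecker, hp.herm, hq.herm]
  · rw [← mul_kronecker_mul, hp.idem, hq.idem]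
  · rw [trace_kronecker, hp.trace_eq, hq.trace_eq, one_mul]

theorem conj (hp : Rk1 p) : Rk1 (p.map star) := by
  obtain ⟨e, he, rfl⟩ := hp
  refine ⟨star e, by rw [star_star, dotProduct_comm, he], ?_⟩
  ext i j
  simp [vecMulVec_apply, mul_comm]

/-- `Hom (p, q)` is a line -/
theorem hom_eq (hp : Rk1 p) (hq : Rk1 q) {m : Matrix l κ ℂ} (hm : q * m * p = m) (h0 : m ≠ 0) :
    ∃ c : ℝ, 0 < c ∧ (mᴴ * m).trace = c ∧ mᴴ * m = (c : ℂ) • p ∧ m * mᴴ = (c : ℂ) • q := by
  obtain ⟨e, he, rfl⟩ := hp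
  obtain ⟨f, hf, rfl⟩ := hq
  obtain ⟨a, rfl⟩ : ∃ a : ℂ, m = a • vecMulVec f (star e) := by
    refine ⟨star f ⬝ᵥ (m *ᵥ e), ?_⟩
    conv_lhs => rw [← hm, Matrix.mul_assoc, mul_vecMulVec, vecMulVec_mul_vecMulVec]
    rw [vecMulVec_smul]
  have ha : a ≠ 0 := fun h => h0 (by rw [h, zero_smul])
  have h1 : (a • vecMulVec f (star e))ᴴ * (a • vecMulVec f (star e)) =
      ((Complex.normSq a : ℝ) : ℂ) • vecMulVec e (star e) := by
    rw [conjTranspose_smul, vmv_ct, Matrix.smul_mul, Matrix.mul_smul, vecMulVec_mul_vecMulVec, hf,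
      one_smul, smul_smul, Complex.normSq_eq_conj_mul_self]
    rfl
  refine ⟨Complex.normSq a, Complex.normSq_pos.2 ha, ?_, h1, ?_⟩
  · rw [h1, trace_smul, trace_vecMulVec, dotProduct_comm, he, smul_eq_mul, mul_one]
  · rw [conjTranspose_smul, vmv_ct, Matrix.smul_mul, Matrix.mul_smul, vecMulVec_mul_vecMulVec, he,
      one_smul, smul_smul, Complex.normSq_eq_conj_mul_self, mul_comm]
    rfl

end Rk1

/-- a matrix as an operator -/
def clm [DecidableEq κ] : Matrix κ κ ℂ →ₗ[ℂ] (κ → ℂ) →L[ℂ] (κ → ℂ) :=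
  (LinearMap.toContinuousLinearMap (𝕜 := ℂ) (E := κ → ℂ) (F' := κ → ℂ)).toLinearMap ∘ₗ
    (Matrix.toLin' (R := ℂ) (m := κ) (n := κ)).toLinearMap

@[simp] theorem clm_apply [DecidableEq κ] (p : Matrix κ κ ℂ) (v : κ → ℂ) : clm p v = p *ᵥ v := rfl

theorem continuous_clm [DecidableEq κ] : Continuous (clm (κ := κ)) :=
  LinearMap.continuous_of_finiteDimensional _

theorem isLine_clm [DecidableEq κ] {X : Type*} [TopologicalSpace X] {p : X → Matrix κ κ ℂ}
    {S : Set X} (hc : ContinuousOn p S) (h : ∀ x ∈ S, Rk1 (p x)) :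
    IsLine (fun x => clm (p x)) S := by
  refine ⟨continuous_clm.comp_continuousOn hc, fun x hx v => ?_, fun x hx => ?_⟩
  · rw [clm_apply, clm_apply, mulVec_mulVec, (h x hx).idem]
  · obtain ⟨e, he, hp⟩ := h x hx
    refine ⟨e, fun h0 => by simp [h0] at he, by rw [clm_apply, hp, vmv_mulVec, he, one_smul],
      fun v hv => ⟨star e ⬝ᵥ v, ?_⟩⟩
    rw [clm_apply, hp, vmv_mulVec] at hv
    exact hv.symm

section smooth

variable {E H : Type*} [NormedAddCommGroup E] [NormedSpace ℝ E] [FiniteDimensional ℝ E]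
  [TopologicalSpace H] {I : ModelWithCorners ℝ E H} {M : Type*} [TopologicalSpace M]
  [ChartedSpace H M] [IsManifold I ∞ M] [SigmaCompactSpace M] [T2Space M]

/-- smoothing a continuous section of a smooth projector field -/
theorem exists_smooth_sec {F : Type*} [NormedAddCommGroup F] [NormedSpace ℝ F]
    {Q : M → F →ₗ[ℝ] F} (hQ : ∀ v, ContMDiff I 𝓘(ℝ, F) ∞ fun y => Q y v)
    (hi : ∀ y v, Q y (Q y v) = Q y v) {s : M → F} (hs : Continuous s) (h1 : ∀ y, Q y (s y) = s y)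
    {δ : M → ℝ} (hδ : Continuous δ) (h0 : ∀ y, 0 < δ y) :
    ∃ t : M → F, ContMDiff I 𝓘(ℝ, F) ∞ t ∧ ∀ y, Q y (t y) = t y ∧ ‖t y - s y‖ < δ y := by
  suffices h : ∃ t : C^∞⟮I, M; 𝓘(ℝ, F), F⟯, ∀ y, t y ∈ {v | Q y v = v} ∩ Metric.ball (s y) (δ y) by
    obtain ⟨t, ht⟩ := h
    exact ⟨t, t.contMDiff, fun y => ⟨(ht y).1, mem_ball_iff_norm.1 (ht y).2⟩⟩
  refine exists_contMDiffMap_forall_mem_convex_of_local (n := ⊤) I
    (t := fun y => {v | Q y v = v} ∩ Metric.ball (s y) (δ y)) (fun y => ?_) fun x => ?_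
  · refine Convex.inter ?_ (convex_ball _ _)
    intro a ha b hb c d _ _ _
    simp only [mem_ofPred_eq] at ha hb ⊢
    rw [map_add, map_smul, map_smul, ha, hb]
  · have c1 : Continuous fun y => ‖Q y (s x) - s y‖ := ((hQ _).continuous.sub hs).norm
    refine ⟨{y | ‖Q y (s x) - s y‖ < δ y}, (isOpen_lt c1 hδ).mem_nhds ?_, fun y => Q y (s x),
      (hQ _).contMDiffOn, fun y hy => ⟨hi _ _, mem_ball_iff_norm.2 hy⟩⟩
    simpa [h1] using h0 x

/-- smoothing a nowhere zero section -/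
theorem exists_smooth_sec_ne {F : Type*} [NormedAddCommGroup F] [NormedSpace ℝ F]
    {Q : M → F →ₗ[ℝ] F} (hQ : ∀ v, ContMDiff I 𝓘(ℝ, F) ∞ fun y => Q y v)
    (hi : ∀ y v, Q y (Q y v) = Q y v) {s : M → F} (hs : Continuous s) (h1 : ∀ y, Q y (s y) = s y)
    (h0 : ∀ y, s y ≠ 0) :
    ∃ t : M → F, ContMDiff I 𝓘(ℝ, F) ∞ t ∧ ∀ y, Q y (t y) = t y ∧ t y ≠ 0 := by
  obtain ⟨t, h2, h3⟩ := exists_smooth_sec hQ hi hs h1 hs.norm fun y => norm_pos_iff.2 (h0 y)
  exact ⟨t, h2, fun y => ⟨(h3 y).1, fun h => by simpa [h] using (h3 y).2⟩⟩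

variable (I) in
/-- a smooth partial isometry from `p` to `q` -/
structure LIso (p : M → Matrix κ κ ℂ) (q : M → Matrix l l ℂ) (u : M → Matrix l κ ℂ) : Prop where
  sm : ∀ y, MSm I u y
  left : ∀ y, (u y)ᴴ * u y = p y
  right : ∀ y, u y * (u y)ᴴ = q y

/-- two sided multiplication on `l → κ → ℂ` -/
def sand (q : Matrix l l ℂ) (p : Matrix κ κ ℂ) : (l → κ → ℂ) →ₗ[ℝ] (l → κ → ℂ) where
  toFun m := fun i j => (q * Matrix.of m * p) i j
  map_add' a b := by
    show q * (Matrix.of a + Matrix.of b) * p = q * Matrix.of a * p + q * Matrix.of b * p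
    rw [Matrix.mul_add, Matrix.add_mul]
  map_smul' r a := by
    show q * (r • Matrix.of a) * p = r • (q * Matrix.of a * p)
    rw [Matrix.mul_smul, Matrix.smul_mul]

theorem fsm_sqrt_inv {c : M → ℝ} {y : M} (hc : FSm I c y) (h : 0 < c y) :
    FSm I (fun z => (√(c z))⁻¹) y :=
  ((Real.contDiffAt_sqrt h.ne').inv (Real.sqrt_pos.2 h).ne').comp_contMDiffAt hc

/-- a nowhere zero smooth homomorphism with `mᴴ m = c p`, `m mᴴ = c q` can be normalised -/
theorem liso_of_conf {p : M → Matrix κ κ ℂ} {q : M → Matrix l l ℂ} {m : M → Matrix l κ ℂ}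
    (hm : ∀ y, MSm I m y) {c : M → ℝ} (hc : ∀ y, FSm I c y) (h0 : ∀ y, 0 < c y)
    (h1 : ∀ y, (m y)ᴴ * m y = (c y : ℂ) • p y) (h2 : ∀ y, m y * (m y)ᴴ = (c y : ℂ) • q y) :
    LIso I p q fun y => (√(c y))⁻¹ • m y := by
  have e : ∀ y, ((√(c y))⁻¹ * (√(c y))⁻¹ * c y : ℝ) = 1 := fun y => by
    rw [← mul_inv, Real.mul_self_sqrt (h0 y).le, inv_mul_cancel₀ (h0 y).ne']
  refine ⟨fun y => MSm.rsmul (fsm_sqrt_inv (hc y) (h0 y)) (hm y), fun y => ?_, fun y => ?_⟩
  · rw [conjTranspose_smul, Matrix.smul_mul, Matrix.mul_smul, h1, Complex.coe_smul, smul_smul,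
      smul_smul, star_trivial, e, one_smul]
  · rw [conjTranspose_smul, Matrix.smul_mul, Matrix.mul_smul, h2, Complex.coe_smul, smul_smul,
      smul_smul, star_trivial, e, one_smul]

/-- **continuously isomorphic smooth lines are smoothly and isometrically isomorphic** -/
theorem exists_liso {p : M → Matrix κ κ ℂ} {q : M → Matrix l l ℂ} (sp : ∀ y, MSm I p y)
    (sq : ∀ y, MSm I q y) (hp : ∀ y, Rk1 (p y)) (hq : ∀ y, Rk1 (q y)) {m : M → Matrix l κ ℂ}
    (cm : Continuous m) (hm : ∀ y, q y * m y * p y = m y) (h0 : ∀ y, m y ≠ 0) :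
    ∃ u, LIso I p q u := by
  obtain ⟨t, st, ht⟩ := exists_smooth_sec_ne (I := I) (Q := fun y => sand (q y) (p y))
    (fun v y => MSm.iff_pi.1 (((sq y).mul (MSm.const (Matrix.of v))).mul (sp y)))
    (fun y v => by
      show q y * (q y * Matrix.of v * p y) * p y = q y * Matrix.of v * p y
      rw [← Matrix.mul_assoc, ← Matrix.mul_assoc, (hq y).idem, Matrix.mul_assoc, (hp y).idem])
    (s := fun y i j => m y i j) cm hm h0
  have sm : ∀ y, MSm I (fun y => Matrix.of (t y)) y := fun y => MSm.iff_pi.2 (st y)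
  have h := fun y => (hp y).hom_eq (hq y) (m := Matrix.of (t y)) (ht y).1 (ht y).2
  choose c c0 c1 c2 c3 using h
  refine ⟨_, liso_of_conf sm (c := c) (fun y => ?_) c0 c2 c3⟩
  have : c = fun y => RCLike.re (((Matrix.of (t y))ᴴ * Matrix.of (t y)).trace) :=
    funext fun y => by rw [c1]; simp
  rw [this]
  exact FSm.re ((sm y).ct.mul (sm y)).trace

/-- two lines with continuous frames: the homomorphism `s' sᴴ` -/
theorem sand_vmv {p : Matrix κ κ ℂ} {q : Matrix l l ℂ} (hp : pᴴ = p) {s : κ → ℂ} {s' : l → ℂ}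
    (h : p *ᵥ s = s) (h' : q *ᵥ s' = s') :
    q * vecMulVec s' (star s) * p = vecMulVec s' (star s) := by
  rw [mul_vecMulVec, h', vecMulVec_mul, ← hp, ← star_mulVec, h]

theorem vmv_ne {s : κ → ℂ} {s' : l → ℂ} (h : s ≠ 0) (h' : s' ≠ 0) : vecMulVec s' (star s) ≠ 0 := by
  intro h0
  have := vmv_mulVec' s' (star s) s
  rw [h0, zero_mulVec] at this
  rcases smul_eq_zero.1 this.symm with h1 | h1
  · exact (star_dot_pos h).1.ne' (by rw [h1]; rfl)
  · exact h' h1

theorem continuous_vmv {X : Type*} [TopologicalSpace X] {s : X → κ → ℂ} {s' : X → l → ℂ}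
    (h : Continuous s) (h' : Continuous s') : Continuous fun x => vecMulVec (s' x) (star (s x)) :=
  continuous_pi fun i => continuous_pi fun j => by
    simp only [vecMulVec_apply, Pi.star_apply]
    fun_prop

/-- a continuously framed smooth line has a smooth unit frame -/
theorem exists_unit_frame [DecidableEq κ] {p : M → Matrix κ κ ℂ} (sp : ∀ y, MSm I p y)
    (hp : ∀ y, Rk1 (p y)) {s : M → κ → ℂ} (hs : IsFrame (fun y => clm (p y)) s univ) :
    ∃ e : M → κ → ℂ, (∀ y i, FSm I (fun z => e z i) y) ∧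
      ∀ y, star (e y) ⬝ᵥ e y = 1 ∧ p y = vecMulVec (e y) (star (e y)) := by
  have r1 : Rk1 (1 : Matrix Unit Unit ℂ) := Rk1.of_trace (by simp) (by simp) (by simp)
  obtain ⟨u, hu⟩ := exists_liso (I := I) (p := fun _ => (1 : Matrix Unit Unit ℂ)) (q := p)
    (fun _ => MSm.const _) sp (fun _ => r1) hp (m := fun y => vecMulVec (s y) (star fun _ => 1))
    (continuous_vmv continuous_const (continuousOn_univ.1 hs.cont))
    (fun y => sand_vmv (by simp) (by simp) (hs.sec y (mem_univ _)))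
    fun y => vmv_ne (fun h => one_ne_zero (congrFun h ())) (hs.ne y (mem_univ _))
  refine ⟨fun y i => u y i (), fun y i => hu.sm y i (), fun y => ⟨?_, ?_⟩⟩
  · have := congrFun (congrFun (hu.left y) ()) ()
    simpa [Matrix.mul_apply, dotProduct] using this
  · rw [← hu.right y]
    ext i j
    simp [Matrix.mul_apply, vecMulVec_apply]

theorem LIso.symm {p : M → Matrix κ κ ℂ} {q : M → Matrix l l ℂ} {u : M → Matrix l κ ℂ}
    (h : LIso I p q u) : LIso I q p fun y => (u y)ᴴ :=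
  ⟨fun y => (h.sm y).ct, fun y => by rw [conjTranspose_conjTranspose, h.right],
    fun y => by rw [conjTranspose_conjTranspose, h.left]⟩

end smooth

end

end Crest.Agent.X212.Pic56
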