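import Crest.Agent.X212.Pic56.Fill
import Crest.Agent.X212.Pic56.Mat
import Crest.Agent.X212.Ext52.Defs

/-!
# X212 / Pic56 / Smo (helper56): `Pic (Fill t σ) = ℤ / p` and matching across a homeomorphism

* `FType t σ p j` : the type of a line `p` (matrix projector field) on the smooth filling;
* `FType.of_frames` (how to compute it), `exists_ftype`, `exists_line` (all types occur),
  `FType.kron`, `FType.conj`, `FType.dvd_sub`, `FType.of_dvd_sub`, `FType.of_hom`;
* `FType.liso` : congruent types give a smooth partial isometry;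
* `exists_unit` : a homeomorphism `f` multiplies types by a unit, `natAbs_eq` : `|p| = |p'|`;
* `FType.pull_small`, `liso_across` : for `p ∣ 2` the types are preserved by `f`.
-/

set_option autoImplicit false
set_option linter.unusedSectionVars false

open Set Function Matrix Metric Topology
open scoped ContDiff Manifold Kronecker
open Crest.GeometryTopology.DehnSurgery Crest.Agent.X212.Pj41 Crest.Agent.X212.Ext52
  Crest.Agent.X212.Glue52

namespace Crest.Agent.X212.Pic56

noncomputable section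

variable {κ l : Type*} [Fintype κ] [Fintype l] [DecidableEq κ] [DecidableEq l]

/-! ### matrix lines on `SlopeFilling` -/

section top

variable {T : ThickKnot} {σ : FillingData}

/-- a continuous line -/
structure CLine {X : Type*} [TopologicalSpace X] (p : X → Matrix κ κ ℂ) : Prop where
  cont : Continuous p
  rk : ∀ x, Rk1 (p x)

theorem CLine.isLine {X : Type*} [TopologicalSpace X] {p : X → Matrix κ κ ℂ} (h : CLine p) :
    IsLine (fun x => clm (p x)) univ := isLine_clm h.cont.continuousOn fun x _ => h.rk x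

theorem CLine.comp {X Y : Type*} [TopologicalSpace X] [TopologicalSpace Y] {p : X → Matrix κ κ ℂ}
    (h : CLine p) {g : Y → X} (hg : Continuous g) : CLine fun y => p (g y) :=
  ⟨h.cont.comp hg, fun _ => h.rk _⟩

theorem CLine.kron {X : Type*} [TopologicalSpace X] {p : X → Matrix κ κ ℂ} {q : X → Matrix l l ℂ}
    (hp : CLine p) (hq : CLine q) : CLine fun x => p x ⊗ₖ q x :=
  ⟨continuous_pi fun i => continuous_pi fun j =>
    (hp.cont.matrix_elem i.1 j.1).mul (hq.cont.matrix_elem i.2 j.2), fun x => (hp.rk x).kron (hq.rk x)⟩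

theorem CLine.conj {X : Type*} [TopologicalSpace X] {p : X → Matrix κ κ ℂ} (hp : CLine p) :
    CLine fun x => (p x).map star :=
  ⟨continuous_pi fun i => continuous_pi fun j => (hp.cont.matrix_elem i j).star,
    fun x => (hp.rk x).conj⟩

theorem CLine.of_msm {E H : Type*} [NormedAddCommGroup E] [NormedSpace ℝ E] [TopologicalSpace H]
    {I : ModelWithCorners ℝ E H} {M : Type*} [TopologicalSpace M] [ChartedSpace H M]
    {p : M → Matrix κ κ ℂ} (sp : ∀ y, MSm I p y) (hp : ∀ y, Rk1 (p y)) : CLine p :=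
  ⟨continuous_iff_continuousAt.2 fun y => (sp y).continuousAt, hp⟩

theorem frame_kron {X : Type*} [TopologicalSpace X] {p : X → Matrix κ κ ℂ} {q : X → Matrix l l ℂ}
    {s : X → κ → ℂ} {s' : X → l → ℂ} (h : IsFrame (fun x => clm (p x)) s univ)
    (h' : IsFrame (fun x => clm (q x)) s' univ) :
    IsFrame (fun x => clm (p x ⊗ₖ q x)) (fun x i => s x i.1 * s' x i.2) univ := by
  have c := continuousOn_univ.1 h.cont
  have c' := continuousOn_univ.1 h'.cont
  refine ⟨Continuous.continuousOn (by fun_prop), fun x hx => ?_, fun x hx h0 => ?_⟩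
  · have h1 : p x *ᵥ s x = s x := h.sec x hx
    have h2 : q x *ᵥ s' x = s' x := h'.sec x hx
    ext ⟨i, j⟩
    rw [← congrFun h1 i, ← congrFun h2 j]
    simp only [clm_apply, mulVec, dotProduct, kroneckerMap_apply, Fintype.sum_prod_type,
      Finset.sum_mul_sum]
    exact Finset.sum_congr rfl fun _ _ => Finset.sum_congr rfl fun _ _ => by ring
  · obtain ⟨i, hi⟩ := Function.ne_iff.1 (h.ne x hx)
    obtain ⟨j, hj⟩ := Function.ne_iff.1 (h'.ne x hx)
    exact mul_ne_zero hi hj (congrFun h0 (i, j))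

theorem frame_conj {X : Type*} [TopologicalSpace X] {p : X → Matrix κ κ ℂ} {s : X → κ → ℂ}
    (h : IsFrame (fun x => clm (p x)) s univ) :
    IsFrame (fun x => clm ((p x).map star)) (fun x => star (s x)) univ := by
  refine ⟨h.cont.star, fun x hx => ?_, fun x hx h0 => h.ne x hx (star_eq_zero.1 h0)⟩
  have h1 : p x *ᵥ s x = s x := h.sec x hx
  ext i
  conv_rhs => rw [← h1]
  simp [mulVec, dotProduct]

theorem frame_hom {X : Type*} [TopologicalSpace X] {p : X → Matrix κ κ ℂ} {q : X → Matrix l l ℂ}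
    (hp : ∀ x, Rk1 (p x)) (hq : ∀ x, Rk1 (q x)) {m : X → Matrix l κ ℂ} (cm : Continuous m)
    (hm : ∀ x, q x * m x * p x = m x) (h0 : ∀ x, m x ≠ 0) {s : X → κ → ℂ}
    (h : IsFrame (fun x => clm (p x)) s univ) :
    IsFrame (fun x => clm (q x)) (fun x => m x *ᵥ s x) univ := by
  refine ⟨(cm.matrix_mulVec (continuousOn_univ.1 h.cont)).continuousOn, fun x _ => ?_,
    fun x hx h1 => ?_⟩
  · rw [clm_apply, ← hm, mulVec_mulVec, ← Matrix.mul_assoc, ← Matrix.mul_assoc, (hq x).idem]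
  · obtain ⟨c, c0, -, c2, -⟩ := (hp x).hom_eq (hq x) (hm x) (h0 x)
    have h2 : p x *ᵥ s x = s x := h.sec x hx
    have h3 := congrArg (fun v => (m x)ᴴ *ᵥ v) h1
    simp only [mulVec_mulVec, c2, smul_mulVec, h2, mulVec_zero] at h3
    exact smul_ne_zero (Complex.ofReal_ne_zero.2 c0.ne') (h.ne x hx) h3

theorem circle_star_zpow (u : Circle) (j : ℤ) : star ((u : ℂ) ^ j) = (u : ℂ) ^ (-j) := by
  rw [star_zpow₀, _root_.zpow_neg, ← _root_.inv_zpow, ← Circle.coe_inv, Circle.coe_inv_eq_conj]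
  rfl

/-- lines of the same type are continuously isomorphic -/
theorem HasType.hom {p : SlopeFilling T σ → Matrix κ κ ℂ} {q : SlopeFilling T σ → Matrix l l ℂ}
    (hp : ∀ y, Rk1 (p y)) {j : ℤ} (h : HasType T σ (fun y => clm (p y)) j)
    (h' : HasType T σ (fun y => clm (q y)) j) :
    ∃ m : SlopeFilling T σ → Matrix l κ ℂ, Continuous m ∧ (∀ y, q y * m y * p y = m y) ∧
      ∀ y, m y ≠ 0 := by
  obtain ⟨sE, sV, hE, hV, h⟩ := h
  obtain ⟨sE', sV', hE', hV', h'⟩ := h'
  obtain ⟨m, c, eE, eV⟩ := exists_lift T σ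
    (continuous_vmv (continuousOn_univ.1 hE.cont) (continuousOn_univ.1 hE'.cont))
    (continuous_vmv (continuousOn_univ.1 hV.cont) (continuousOn_univ.1 hV'.cont)) fun z => by
      rw [h, h', star_smul, circle_star_zpow, smul_vecMulVec, vecMulVec_smul, smul_smul,
        ← zpow_add₀ z.1.coe_ne_zero, add_neg_cancel, zpow_zero, one_smul]
  refine ⟨m, c, fun y => ?_, fun y => ?_⟩
  · rcases fill_cases T σ y with ⟨e, rfl⟩ | ⟨w, rfl⟩
    · rw [eE]; exact sand_vmv (hp _).herm (hE.sec _ (mem_univ _)) (hE'.sec _ (mem_univ _))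
    · rw [eV]; exact sand_vmv (hp _).herm (hV.sec _ (mem_univ _)) (hV'.sec _ (mem_univ _))
  · rcases fill_cases T σ y with ⟨e, rfl⟩ | ⟨w, rfl⟩
    · rw [eE]; exact vmv_ne (hE.ne _ (mem_univ _)) (hE'.ne _ (mem_univ _))
    · rw [eV]; exact vmv_ne (hV.ne _ (mem_univ _)) (hV'.ne _ (mem_univ _))

/-- the projector onto the line of `v` -/
def prj (v : κ → ℂ) : Matrix κ κ ℂ := (star v ⬝ᵥ v)⁻¹ • vecMulVec v (star v)

omit [DecidableEq κ] in
theorem dot_ne {v : κ → ℂ} (h : v ≠ 0) : star v ⬝ᵥ v ≠ 0 := fun h0 =>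
  (star_dot_pos h).1.ne' (by rw [h0]; rfl)

theorem prj_mulVec {v : κ → ℂ} (h : v ≠ 0) : prj v *ᵥ v = v := by
  rw [prj, smul_mulVec, vmv_mulVec, smul_smul, inv_mul_cancel₀ (dot_ne h), one_smul]

theorem rk1_prj {v : κ → ℂ} (h : v ≠ 0) : Rk1 (prj v) := by
  refine ⟨((len v : ℂ))⁻¹ • v, unit_dot h, ?_⟩
  rw [prj, star_smul, smul_vecMulVec, vecMulVec_smul, smul_smul, ← len_sq h]
  simp

theorem prj_smul {v : κ → ℂ} (h : v ≠ 0) {c : ℂ} (hc : c ≠ 0) : prj (c • v) = prj v := by
  rw [prj, prj, star_smul, smul_vecMulVec, vecMulVec_smul, smul_dotProduct, dotProduct_smul,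
    smul_smul, smul_smul]
  congr 1
  have := dot_ne h
  have : star c ≠ 0 := star_ne_zero.2 hc
  simp only [smul_eq_mul]
  field_simp

theorem continuous_prj {X : Type*} [TopologicalSpace X] {s : X → κ → ℂ} (h : Continuous s)
    (h0 : ∀ x, s x ≠ 0) : Continuous fun x => prj (s x) :=
  ((h.star.dotProduct h).inv₀ fun x => dot_ne (h0 x)).smul (continuous_vmv h h)

/-- all types occur -/
theorem exists_line_top (T : ThickKnot) (σ : FillingData) (j : ℤ) :
    ∃ p : SlopeFilling T σ → Matrix (Fin 2) (Fin 2) ℂ, CLine p ∧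
      HasType T σ (fun y => clm (p y)) j := by
  obtain ⟨g, cg, eg⟩ := exists_ext_emb (continuous_bV σ) (bV_injective σ)
    (g := fun z => (z.1 : ℂ) ^ (-j)) ((continuous_circle_zpow (-j)).comp continuous_fst)
  let sV : FillingTorus → Fin 2 → ℂ := fun w => ![g w, ((1 - ‖(w.1 : ℂ)‖ : ℝ) : ℂ)]
  let e0 : Fin 2 → ℂ := ![1, 0]
  have n0 : e0 ≠ 0 := fun h => one_ne_zero (congrFun h 0)
  have n1 : ∀ (u : Circle) (j : ℤ), (u : ℂ) ^ j ≠ 0 := fun u j => zpow_ne_zero _ u.coe_ne_zero
  have cV : Continuous sV := continuous_pi fun i => by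
    fin_cases i
    · exact cg
    · show Continuous fun w : FillingTorus => ((1 - ‖(w.1 : ℂ)‖ : ℝ) : ℂ)
      fun_prop
  have eb : ∀ z, sV (bV σ z) = ((z.1 : ℂ) ^ (-j)) • e0 := fun z => by
    ext i
    fin_cases i
    · simp [sV, e0, eg]
    · have : ‖((bV σ z).1 : ℂ)‖ = 1 := Circle.norm_coe _
      simp [sV, e0, this]
  have nV : ∀ w, sV w ≠ 0 := by
    rintro ⟨z, y⟩ h
    have h1 : ‖(z : ℂ)‖ = 1 := by
      have := congrFun h 1
      simp only [sV, cons_val_one, cons_val_zero, Pi.zero_apply, Complex.ofReal_eq_zero] at this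
      linarith
    obtain ⟨x, rfl⟩ : ∃ x : Circle, z = bd x := ⟨⟨z, mem_sphere_zero_iff_norm.2 h1⟩, rfl⟩
    rw [← bV_xy σ, eb] at h
    exact smul_ne_zero (n1 _ _) n0 h
  obtain ⟨p, cp, eE, eV⟩ := exists_lift T σ (gE := fun _ => prj e0) continuous_const
    (continuous_prj cV nV) fun z => by rw [eb, prj_smul n0 (n1 _ _)]
  refine ⟨p, ⟨cp, fun y => ?_⟩, fun _ => e0, sV, ⟨continuousOn_const, fun e _ => ?_, fun _ _ => n0⟩,
    ⟨cV.continuousOn, fun w _ => ?_, fun w _ => nV w⟩, fun z => ?_⟩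
  · rcases fill_cases T σ y with ⟨e, rfl⟩ | ⟨w, rfl⟩
    · rw [eE]; exact rk1_prj n0
    · rw [eV]; exact rk1_prj (nV _)
  · simp only [eE]; exact prj_mulVec n0
  · simp only [eV]; exact prj_mulVec (nV _)
  · rw [eb, smul_smul, ← zpow_add₀ z.1.coe_ne_zero, add_neg_cancel, zpow_zero, one_smul]

end top

/-! ### the smooth filling -/

variable (t : Tube) (σ : FillingData)

/-- a point of the closed exterior in the open exterior -/
def exE (e : t.thick.exterior) : t.Ext :=
  ⟨e, fun ⟨w, hw, h⟩ => e.2 ⟨w, ⟨mem_univ _, by rw [show w.2 = 0 from hw.2]; simp⟩, h⟩⟩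

theorem continuous_exE : Continuous (exE t) := continuous_subtype_val.subtype_mk _

/-- a point of the torus in the punctured tube -/
def cz (z : Circle × Circle) : Cz := ⟨(z.1, z.2), z.2.coe_ne_zero⟩

theorem exE_bE (z : Circle × Circle) : exE t (bE t.thick z) = t.τE (cz z) := rfl

theorem tw_symm_cz (z : Circle × Circle) :
    ((tw σ).symm (cz z) : Circle × ℂ) = ((bV σ z).2, ((bV σ z).1 : ℂ)) := by
  have := mon_polar σ.q (-σ.p) (-σ.b) σ.a one_pos z.2 z.1
  rw [Complex.ofReal_one, one_mul, one_mul, mul_comm (z.2 ^ σ.q), mul_comm (z.2 ^ (-σ.b))] at this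
  exact this

theorem exists_toFill : ∃ g : SlopeFilling t.thick σ → Fill t σ, Continuous g ∧
    (∀ e, g (inE _ σ e) = t.ie σ (exE t e)) ∧ ∀ w, g (inV _ σ w) = t.it σ (w.2, w.1) :=
  exists_lift _ σ ((t.two σ).isOpenEmbedding_inl.continuous.comp (continuous_exE t))
    ((t.two σ).isOpenEmbedding_inr.continuous.comp (by fun_prop)) fun z => by
      rw [exE_bE, t.ie_τE', tw_symm_cz]

/-- the comparison map -/
def toFill : SlopeFilling t.thick σ → Fill t σ := (exists_toFill t σ).choose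

theorem continuous_toFill : Continuous (toFill t σ) := (exists_toFill t σ).choose_spec.1

theorem toFill_inE (e : t.thick.exterior) : toFill t σ (inE _ σ e) = t.ie σ (exE t e) :=
  (exists_toFill t σ).choose_spec.2.1 e

theorem toFill_inV (w : FillingTorus) : toFill t σ (inV _ σ w) = t.it σ (w.2, w.1) :=
  (exists_toFill t σ).choose_spec.2.2 w

theorem toFill_EV {e : t.thick.exterior} {w : FillingTorus}
    (h : t.ie σ (exE t e) = t.it σ (w.2, w.1)) : inE _ σ e = inV t.thick σ w := by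
  obtain ⟨z, y⟩ := w
  obtain ⟨h1, h2⟩ := (t.ie_eq_it σ).1 h
  have h3 : ‖(z : ℂ)‖ = 1 := by
    refine le_antisymm (mem_closedBall_zero_iff.1 z.2) (not_lt.1 fun h4 => e.2 ?_)
    exact ⟨_, ⟨mem_univ _, by rwa [mem_ball_zero_iff, norm_mon]⟩, h2⟩
  obtain ⟨x, rfl⟩ : ∃ x : Circle, z = bd x := ⟨⟨z, mem_sphere_zero_iff_norm.2 h3⟩, rfl⟩
  rw [← bV_xy σ, ← inE_bE]
  congr 1
  refine Subtype.ext (h2.symm.trans (congrArg t.τ ?_))
  have := mon_polar σ.q σ.b σ.p σ.a one_pos x y
  rwa [Complex.ofReal_one, one_mul, one_mul] at this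

theorem toFill_bijective : Bijective (toFill t σ) := by
  constructor
  · intro a b h
    rcases fill_cases _ σ a with ⟨e, rfl⟩ | ⟨w, rfl⟩ <;>
      rcases fill_cases _ σ b with ⟨e', rfl⟩ | ⟨w', rfl⟩ <;>
      simp only [toFill_inE, toFill_inV] at h
    · exact congrArg _ (Subtype.ext (congrArg (Subtype.val : t.Ext → S3) ((t.two σ).inl_injective h)))
    · exact toFill_EV t σ h
    · exact (toFill_EV t σ h.symm).symm
    · have := (t.two σ).inr_injective h
      simp only [Prod.mk.injEq] at this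
      exact congrArg _ (Prod.ext (Subtype.ext this.2) this.1)
  · have hV : ∀ z : Circle × ℂ, ‖z.2‖ ≤ 1 → ∃ a, toFill t σ a = t.it σ z := fun z hz =>
      ⟨inV _ σ (⟨z.2, mem_closedBall_zero_iff.2 hz⟩, z.1), toFill_inV t σ _⟩
    have hE : ∀ x : t.Ext, ∃ a, toFill t σ a = t.ie σ x := fun x => by
      by_cases hx : (x : S3) ∈ t.thick.exterior
      · exact ⟨inE _ σ ⟨x, hx⟩, toFill_inE t σ _⟩
      · obtain ⟨w, hw, e⟩ := not_not.1 hx
        have h0 : w.2 ≠ 0 := t.τ_mem_Ext.1 (by rw [show t.τ w = x from e]; exact x.2)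
        have h1 : x = t.τE ⟨w, h0⟩ := Subtype.ext e.symm
        rw [h1, t.ie_τE']
        exact hV _ (by rw [tw_symm_val, norm_mon]; exact (mem_ball_zero_iff.1 hw.2).le)
    intro y
    rcases (t.two σ).surj y with ⟨x, rfl⟩ | ⟨z, rfl⟩
    · exact hE x
    · by_cases hz : ‖z.2‖ ≤ 1
      · exact hV z hz
      · have h0 : z.2 ≠ 0 := fun h => hz (by simp [h])
        obtain ⟨a, ha⟩ := hE (t.τE (tw σ ⟨z, h0⟩))
        exact ⟨a, ha.trans (t.ie_τE σ ⟨z, h0⟩)⟩

instance (T : ThickKnot) : CompactSpace (SlopeFilling T σ) := by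
  have : CompactSpace T.exterior := isCompact_iff_compactSpace.1 (isClosed_exterior T).isCompact
  exact inferInstanceAs (CompactSpace (Quot _))

/-- the topological filling is the smooth one -/
def fillHomeo : SlopeFilling t.thick σ ≃ₜ Fill t σ :=
  Continuous.homeoOfEquivCompactToT2 (f := Equiv.ofBijective _ (toFill_bijective t σ))
    (continuous_toFill t σ)

theorem toFill_symm (y : Fill t σ) : toFill t σ ((fillHomeo t σ).symm y) = y :=
  (fillHomeo t σ).apply_symm_apply y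

theorem isSeif (k : KD) : IsSeif k.thick fun e => (k.θ (exE k.toTube e) : ℂ) := by
  refine ⟨(continuous_subtype_val (p := fun z : ℂ => z ∈ Submonoid.unitSphere ℂ)).comp
    (k.smθ.continuous.comp (continuous_exE _)), fun e => Circle.coe_ne_zero _,
    (HasLog.const one_ne_zero _).congr fun z _ => ?_⟩
  have h : dir (z.2 : ℂ) = z.2 := by simpa using dir_mul one_pos z.2
  rw [exE_bE, k.θτ]
  show ((dir (z.2 : ℂ) : Circle) : ℂ) * _ = 1
  rw [h, mul_inv_cancel₀ z.2.coe_ne_zero]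

/-- the type of a line on the smooth filling -/
def FType (p : Fill t σ → Matrix κ κ ℂ) (j : ℤ) : Prop :=
  HasType t.thick σ (fun y => clm (p (toFill t σ y))) j

variable {t σ}

theorem exists_ftype {p : Fill t σ → Matrix κ κ ℂ} (hp : CLine p) : ∃ j, FType t σ p j :=
  exists_type (hp.comp (continuous_toFill t σ)).isLine

variable (t σ) in
theorem exists_line (j : ℤ) :
    ∃ p : Fill t σ → Matrix (Fin 2) (Fin 2) ℂ, CLine p ∧ FType t σ p j := by
  obtain ⟨p, h1, h2⟩ := exists_line_top t.thick σ j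
  refine ⟨fun y => p ((fillHomeo t σ).symm y), h1.comp (fillHomeo t σ).symm.continuous, ?_⟩
  have : ∀ y, (fillHomeo t σ).symm (toFill t σ y) = y := (fillHomeo t σ).symm_apply_apply
  simpa only [FType, this] using h2

namespace FType

variable {p : Fill t σ → Matrix κ κ ℂ} {q : Fill t σ → Matrix l l ℂ} {j j' : ℤ}

theorem kron (h : FType t σ p j) (h' : FType t σ q j') :
    FType t σ (fun y => p y ⊗ₖ q y) (j + j') := by
  obtain ⟨sE, sV, hE, hV, h⟩ := h
  obtain ⟨sE', sV', hE', hV', h'⟩ := h'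
  refine ⟨_, _, frame_kron hE hE', frame_kron hV hV', fun z => ?_⟩
  ext i
  simp only [h, h', Pi.smul_apply, smul_eq_mul, zpow_add₀ z.1.coe_ne_zero]
  ring

theorem conj (h : FType t σ p j) : FType t σ (fun y => (p y).map star) (-j) := by
  obtain ⟨sE, sV, hE, hV, h⟩ := h
  exact ⟨_, _, frame_conj hE, frame_conj hV, fun z => by rw [h, star_smul, circle_star_zpow]⟩

/-- the type is an isomorphism invariant -/
theorem of_hom (hp : ∀ y, Rk1 (p y)) (hq : ∀ y, Rk1 (q y)) {m : Fill t σ → Matrix l κ ℂ}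
    (cm : Continuous m) (hm : ∀ y, q y * m y * p y = m y) (h0 : ∀ y, m y ≠ 0)
    (h : FType t σ p j) : FType t σ q j := by
  obtain ⟨sE, sV, hE, hV, h⟩ := h
  refine ⟨_, _, frame_hom (fun _ => hp _) (fun _ => hq _)
      (cm.comp ((continuous_toFill t σ).comp (continuous_inE _ σ))) (fun _ => hm _) (fun _ => h0 _) hE,
    frame_hom (fun _ => hp _) (fun _ => hq _)
      (cm.comp ((continuous_toFill t σ).comp (continuous_inV _ σ))) (fun _ => hm _) (fun _ => h0 _) hV,
    fun z => ?_⟩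
  simp only [Function.comp_apply, h, inE_bE, mulVec_smul]

theorem hom (hp : ∀ y, Rk1 (p y)) (h : FType t σ p j) (h' : FType t σ q j) :
    ∃ m : Fill t σ → Matrix l κ ℂ, Continuous m ∧ (∀ y, q y * m y * p y = m y) ∧ ∀ y, m y ≠ 0 := by
  obtain ⟨m, h1, h2, h3⟩ := HasType.hom (fun _ => hp _) h h'
  refine ⟨fun y => m ((fillHomeo t σ).symm y), h1.comp (fillHomeo t σ).symm.continuous, fun y => ?_,
    fun y => h3 _⟩
  simpa only [toFill_symm] using h2 ((fillHomeo t σ).symm y)

theorem frame (h : FType t σ p 0) : ∃ s, IsFrame (fun y => clm (p y)) s univ := by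
  obtain ⟨s, hs⟩ := HasType.frame h
  exact ⟨_, (hs.comp (fillHomeo t σ).symm.continuous.continuousOn (mapsTo_univ _ _)).congr
    (fun y _ => by rw [toFill_symm]) fun _ _ => rfl⟩

theorem of_frame {s : Fill t σ → κ → ℂ} (h : IsFrame (fun y => clm (p y)) s univ) : FType t σ p 0 :=
  HasType.of_frame (h.comp (continuous_toFill t σ).continuousOn (mapsTo_univ _ _))

end FType

section KD

variable {k : KD} {p : Fill k.toTube σ → Matrix κ κ ℂ} {q : Fill k.toTube σ → Matrix l l ℂ}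
  {j j' : ℤ}

theorem FType.dvd_sub (hp : CLine p) (h : FType k.toTube σ p j) (h' : FType k.toTube σ p j') :
    σ.p ∣ j - j' :=
  HasType.dvd_sub (isSeif k) (hp.comp (continuous_toFill _ σ)).isLine h h'

theorem FType.of_dvd_sub (h : FType k.toTube σ p j) (hd : σ.p ∣ j' - j) : FType k.toTube σ p j' :=
  HasType.of_dvd_sub (isSeif k) h hd

/-- **computing the type**: frames on the two open pieces whose ratio on the unit torus is the
character `u ^ c v ^ d` times a unit with a logarithm -/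
theorem FType.of_frames {sE : k.Ext → κ → ℂ} {sV : Circle × ℂ → κ → ℂ}
    (hE : IsFrame (fun x => clm (p (k.ie σ x))) sE univ)
    (hV : IsFrame (fun z => clm (p (k.it σ z))) sV univ) {c d : ℤ} {φ : Circle × Circle → ℂ}
    (hl : HasLog (fun z => φ z * ((z.1 : ℂ) ^ c * (z.2 : ℂ) ^ d)⁻¹) univ)
    (h : ∀ z, sE (k.τE (cz z)) = φ z • sV ((tw σ).symm (cz z))) : FType k.toTube σ p c := by
  have hθ := isSeif k
  have hE' : IsFrame (fun e => clm (p (toFill _ σ (inE _ σ e)))) (fun e => sE (exE _ e)) univ :=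
    (hE.comp (continuous_exE _).continuousOn (mapsTo_univ _ _)).congr
      (fun e _ => by rw [toFill_inE]) fun _ _ => rfl
  have hV' : IsFrame (fun w => clm (p (toFill _ σ (inV _ σ w))))
      (fun w : FillingTorus => sV (w.2, w.1)) univ :=
    (hV.comp (g := fun w : FillingTorus => (w.2, (w.1 : ℂ))) (by fun_prop) (mapsTo_univ _ _)).congr
      (fun e _ => by rw [toFill_inV]) fun _ _ => rfl
  refine HasType.of_log (hE'.smul (φ := fun e => (k.θ (exE _ e) : ℂ) ^ (-d))
      (hθ.cont.zpow₀ _ fun e => Or.inl (hθ.ne e)).continuousOn fun e _ => zpow_ne_zero _ (hθ.ne e))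
    hV' (φ := fun z => (k.θ (exE _ (bE _ z)) : ℂ) ^ (-d) * φ z) ?_ fun z => ?_
  · refine (hl.mul (hθ.bdry.zpow d).inv).congr fun z _ => ?_
    have h1 := zpow_ne_zero c z.1.coe_ne_zero
    have h2 := zpow_ne_zero d z.2.coe_ne_zero
    have h3 := zpow_ne_zero d (hθ.ne (bE _ z))
    rw [_root_.mul_zpow, _root_.inv_zpow, _root_.zpow_neg]
    field_simp
  · rw [exE_bE, h, tw_symm_cz, smul_smul]

/-- **congruent types give a smooth isometric isomorphism** -/
theorem FType.liso (sp : ∀ y, MSm (𝓡 3) p y) (sq : ∀ y, MSm (𝓡 3) q y) (hp : ∀ y, Rk1 (p y))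
    (hq : ∀ y, Rk1 (q y)) (h : FType k.toTube σ p j) (h' : FType k.toTube σ q j')
    (hd : σ.p ∣ j' - j) : ∃ u, LIso (𝓡 3) p q u := by
  obtain ⟨m, h1, h2, h3⟩ := (h.of_dvd_sub hd).hom hp h'
  exact exists_liso sp sq hp hq h1 h2 h3

theorem FType.frame_iff (hp : CLine p) (h : FType k.toTube σ p j) :
    (∃ s, IsFrame (fun y => clm (p y)) s univ) ↔ σ.p ∣ j :=
  ⟨fun ⟨_, hs⟩ => by simpa using h.dvd_sub hp (FType.of_frame hs),
    fun hd => (h.of_dvd_sub (j' := 0) (by simpa using hd)).frame⟩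

variable {k' : KD} {σ' : FillingData} {f : Fill k.toTube σ → Fill k'.toTube σ'}

/-- a continuous map multiplies types by a fixed integer -/
theorem exists_mult (hf : Continuous f) : ∃ a : ℤ, ∀ (κ : Type) [Fintype κ] [DecidableEq κ]
    (p : Fill k'.toTube σ' → Matrix κ κ ℂ) (j : ℤ), CLine p → FType k'.toTube σ' p j →
      FType k.toTube σ (fun y => p (f y)) (a * j) := by
  obtain ⟨L, cL, tL⟩ := exists_line k'.toTube σ' 1
  obtain ⟨a, ha⟩ := exists_ftype (cL.comp hf)
  refine ⟨a, fun κ _ _ p j cp tp => ?_⟩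
  -- a model line of type `j` whose pull-back has type `a * j`
  have key : ∀ j : ℤ, ∃ (κ : Type) (_ : Fintype κ) (_ : DecidableEq κ)
      (q : Fill k'.toTube σ' → Matrix κ κ ℂ), CLine q ∧ FType k'.toTube σ' q j ∧
        FType k.toTube σ (fun y => q (f y)) (a * j) := by
    intro j
    induction j using Int.induction_on with
    | zero => exact ⟨_, _, _, _, cL.kron cL.conj, by simpa using tL.kron tL.conj,
        by simpa using ha.kron ha.conj⟩
    | succ i ih =>
      obtain ⟨κ, _, _, q, h1, h2, h3⟩ := ih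
      exact ⟨_, _, _, _, h1.kron cL, h2.kron tL, by simpa [mul_add] using h3.kron ha⟩
    | pred i ih =>
      obtain ⟨κ, _, _, q, h1, h2, h3⟩ := ih
      exact ⟨_, _, _, _, h1.kron cL.conj, h2.kron tL.conj,
        by simpa [mul_sub, sub_eq_add_neg, mul_add] using h3.kron ha.conj⟩
  obtain ⟨κ', _, _, q, h1, h2, h3⟩ := key j
  obtain ⟨m, m1, m2, m3⟩ := h2.hom h1.rk tp
  exact h3.of_hom (fun _ => h1.rk _) (fun _ => cp.rk _) (m1.comp hf) (fun _ => m2 _) fun _ => m3 _

/-- **a homeomorphism multiplies types by a unit, and `|p| = |p'|`** -/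
theorem exists_unit (f : Fill k.toTube σ ≃ₜ Fill k'.toTube σ') : ∃ a b : ℤ, σ.p ∣ a * b - 1 ∧
    σ.p.natAbs = σ'.p.natAbs ∧ ∀ (κ : Type) [Fintype κ] [DecidableEq κ]
    (p : Fill k'.toTube σ' → Matrix κ κ ℂ) (j : ℤ), CLine p → FType k'.toTube σ' p j →
      FType k.toTube σ (fun y => p (f y)) (a * j) := by
  obtain ⟨a, ha⟩ := exists_mult f.continuous
  obtain ⟨b, hb⟩ := exists_mult f.symm.continuous
  have h1 : ∀ j, σ.p ∣ a * (b * j) - j := fun j => by
    obtain ⟨L, cL, tL⟩ := exists_line k.toTube σ j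
    have := ha _ _ _ (cL.comp f.symm.continuous) (hb _ L j cL tL)
    simp only [Homeomorph.symm_apply_apply] at this
    exact this.dvd_sub cL tL
  have h2 : ∀ j, σ'.p ∣ b * (a * j) - j := fun j => by
    obtain ⟨L, cL, tL⟩ := exists_line k'.toTube σ' j
    have := hb _ _ _ (cL.comp f.continuous) (ha _ L j cL tL)
    simp only [Homeomorph.apply_symm_apply] at this
    exact this.dvd_sub cL tL
  have h3 : σ.p ∣ a * σ'.p := by
    obtain ⟨L, cL, tL⟩ := exists_line k'.toTube σ' 0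
    simpa using (ha _ L _ cL (tL.of_dvd_sub (j' := σ'.p) (by simp))).dvd_sub
      (cL.comp f.continuous) (ha _ L _ cL tL)
  have h4 : σ'.p ∣ b * σ.p := by
    obtain ⟨L, cL, tL⟩ := exists_line k.toTube σ 0
    simpa using (hb _ L _ cL (tL.of_dvd_sub (j' := σ.p) (by simp))).dvd_sub
      (cL.comp f.symm.continuous) (hb _ L _ cL tL)
  refine ⟨a, b, by simpa using h1 1, Nat.dvd_antisymm ?_ ?_, ha⟩
  · rw [Int.natAbs_dvd_natAbs]
    have := (h3.mul_left b).sub (h1 σ'.p)
    rwa [show b * (a * σ'.p) - (a * (b * σ'.p) - σ'.p) = σ'.p by ring] at this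
  · rw [Int.natAbs_dvd_natAbs]
    have := (h4.mul_left a).sub (h2 σ.p)
    rwa [show a * (b * σ.p) - (b * (a * σ.p) - σ.p) = σ.p by ring] at this

theorem natAbs_eq (f : Fill k.toTube σ ≃ₜ Fill k'.toTube σ') : σ.p.natAbs = σ'.p.natAbs :=
  let ⟨_, _, _, h, _⟩ := exists_unit f; h

/-- for `p ∣ 2` a homeomorphism preserves types -/
theorem FType.pull_small (f : Fill k.toTube σ ≃ₜ Fill k'.toTube σ') (h2 : σ.p ∣ 2) {κ : Type}
    [Fintype κ] [DecidableEq κ] {p : Fill k'.toTube σ' → Matrix κ κ ℂ} (cp : CLine p)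
    (h : FType k'.toTube σ' p j) : FType k.toTube σ (fun y => p (f y)) j := by
  obtain ⟨a, b, h3, -, ha⟩ := exists_unit f
  refine (ha κ p j cp h).of_dvd_sub ?_
  have h4 : σ.p ∣ a - 1 := by
    rcases Int.even_or_odd' a with ⟨c, rfl | rfl⟩
    · have : σ.p ∣ 1 := by
        have := (h2.mul_right (c * b)).sub h3
        rwa [show 2 * (c * b) - (2 * c * b - 1) = 1 by ring] at this
      exact this.trans (one_dvd _)
    · simpa using h2.mul_right c
  have := (h4.mul_right j).neg_right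
  rwa [show -((a - 1) * j) = j - a * j by ring] at this

/-- **matching of two smooth lines across a diffeomorphism**, `p ∣ 2` -/
theorem liso_across (f : Fill k.toTube σ ≃ₘ^∞⟮𝓡 3, 𝓡 3⟯ Fill k'.toTube σ') (h2 : σ.p ∣ 2) {l : Type}
    [Fintype l] [DecidableEq l] {q : Fill k'.toTube σ' → Matrix l l ℂ}
    (sp : ∀ y, MSm (𝓡 3) p y) (sq : ∀ y, MSm (𝓡 3) q y) (hp : ∀ y, Rk1 (p y)) (hq : ∀ y, Rk1 (q y))
    (h : FType k.toTube σ p j) (h' : FType k'.toTube σ' q j') (hd : σ.p ∣ j' - j) :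
    ∃ u, LIso (𝓡 3) p (fun y => q (f y)) u :=
  h.liso sp (fun y => (sq _).comp (f.contMDiff y)) hp (fun _ => hq _)
    (FType.pull_small f.toHomeomorph h2 (CLine.of_msm sq hq) h') hd

end KD

end

end Crest.Agent.X212.Pic56
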