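import Mathlib

/-!
# X212 / Pic56 / Log (helper56): continuous logarithms and degrees of circle maps

* `HasLog φ S` : `φ = exp ψ` on `S` with `ψ` continuous on `S`;
* `HasLog.homotopy`, `HasLog.of_contract` : logarithms along a homotopy;
* `HasLog.union` : two closed sets with preconnected intersection;
* `exists_deg` : on `X × Circle`, `φ(x,u) = u^j exp ψ`;  `deg_unique` : `u^j = exp ψ ⇒ j = 0`;
* `exists_deg_torus`, `deg_unique_torus`;
* `hasLog_sphere` : spheres of dimension at least two.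
-/

set_option autoImplicit false

open Set Function Complex
open scoped Real Topology

namespace Crest.Agent.X212.Pic56

noncomputable section

variable {X : Type*} [TopologicalSpace X]

/-- `φ` has a continuous logarithm on `S` -/
def HasLog (φ : X → ℂ) (S : Set X) : Prop :=
  ∃ ψ : X → ℂ, ContinuousOn ψ S ∧ ∀ x ∈ S, φ x = exp (ψ x)

namespace HasLog

theorem mono {φ : X → ℂ} {S T : Set X} (h : HasLog φ S) (hT : T ⊆ S) : HasLog φ T :=
  let ⟨ψ, h1, h2⟩ := h; ⟨ψ, h1.mono hT, fun x hx => h2 x (hT hx)⟩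

theorem congr {φ φ' : X → ℂ} {S : Set X} (h : HasLog φ S) (e : ∀ x ∈ S, φ' x = φ x) :
    HasLog φ' S :=
  let ⟨ψ, h1, h2⟩ := h; ⟨ψ, h1, fun x hx => (e x hx).trans (h2 x hx)⟩

theorem mul {φ φ' : X → ℂ} {S : Set X} (h : HasLog φ S) (h' : HasLog φ' S) :
    HasLog (fun x => φ x * φ' x) S := by
  obtain ⟨ψ, h1, h2⟩ := h
  obtain ⟨ψ', h1', h2'⟩ := h'
  exact ⟨fun x => ψ x + ψ' x, h1.add h1', fun x hx => by simp only [h2 x hx, h2' x hx, exp_add]⟩

theorem inv {φ : X → ℂ} {S : Set X} (h : HasLog φ S) : HasLog (fun x => (φ x)⁻¹) S := by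
  obtain ⟨ψ, h1, h2⟩ := h
  exact ⟨fun x => - ψ x, h1.neg, fun x hx => by simp only [h2 x hx, exp_neg]⟩

theorem comp {Y : Type*} [TopologicalSpace Y] {φ : X → ℂ} {S : Set X} (h : HasLog φ S)
    {g : Y → X} {T : Set Y} (hg : ContinuousOn g T) (hm : MapsTo g T S) :
    HasLog (fun y => φ (g y)) T :=
  let ⟨ψ, h1, h2⟩ := h; ⟨fun y => ψ (g y), h1.comp hg hm, fun _ hy => h2 _ (hm hy)⟩

theorem ne_zero {φ : X → ℂ} {S : Set X} (h : HasLog φ S) {x : X} (hx : x ∈ S) : φ x ≠ 0 := by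
  obtain ⟨ψ, -, h2⟩ := h
  rw [h2 x hx]; exact exp_ne_zero _

theorem const {c : ℂ} (hc : c ≠ 0) (S : Set X) : HasLog (fun _ : X => c) S :=
  ⟨fun _ => log c, continuousOn_const, fun _ _ => (exp_log hc).symm⟩

theorem of_subtype {φ : X → ℂ} {S : Set X} (h : HasLog (fun x : S => φ x) univ) : HasLog φ S := by
  classical
  obtain ⟨ψ, h1, h2⟩ := h
  refine ⟨fun x => if hx : x ∈ S then ψ ⟨x, hx⟩ else 0, ?_, fun x hx => ?_⟩
  · rw [continuousOn_iff_continuous_domRestrict]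
    convert continuousOn_univ.1 h1 using 1
    funext x
    simp [x.2]
  · simp only [hx, dite_true]
    exact h2 ⟨x, hx⟩ (mem_univ _)

/-- a positive function has a logarithm -/
theorem of_pos {r : X → ℝ} {S : Set X} (hr : ContinuousOn r S) (h : ∀ x ∈ S, 0 < r x) :
    HasLog (fun x => (r x : ℂ)) S :=
  ⟨fun x => (Real.log (r x) : ℂ),
    continuous_ofReal.comp_continuousOn (hr.log fun x hx => (h x hx).ne'),
    fun x hx => by rw [← ofReal_exp, Real.exp_log (h x hx)]⟩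

/-- logarithms along a homotopy -/
theorem homotopy {H : unitInterval × X → ℂ} (hc : Continuous H) (h0 : ∀ z, H z ≠ 0)
    (hl : HasLog (fun x => H (0, x)) univ) : HasLog H univ := by
  obtain ⟨ψ, h1, h2⟩ := hl
  let H' : C(unitInterval × X, {z : ℂ // z ≠ 0}) := ⟨fun z => ⟨H z, h0 z⟩, hc.subtype_mk _⟩
  let f : C(X, ℂ) := ⟨ψ, continuousOn_univ.1 h1⟩
  have e0 : ∀ a, H' (0, a) = (fun z : ℂ => (⟨_, z.exp_ne_zero⟩ : {z : ℂ // z ≠ 0})) (f a) :=
    fun a => Subtype.ext (h2 a (mem_univ _))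
  refine ⟨isCoveringMap_exp.liftHomotopy H' f e0, (map_continuous _).continuousOn, fun z _ => ?_⟩
  have := congrFun (isCoveringMap_exp.liftHomotopy_lifts H' f e0) z
  exact (congrArg Subtype.val this).symm

/-- if `S` deforms inside `S'` into `S₀`, logarithms pass from `S₀` to `S` -/
theorem of_deform {φ : X → ℂ} {S S' S₀ : Set X} (hφ : ContinuousOn φ S') (h0 : ∀ x ∈ S', φ x ≠ 0)
    {h : ℝ × X → X} (hc : ContinuousOn h (Icc 0 1 ×ˢ S))
    (hm : ∀ t ∈ Icc (0:ℝ) 1, ∀ x ∈ S, h (t, x) ∈ S') (e0 : ∀ x ∈ S, h (0, x) ∈ S₀)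
    (e1 : ∀ x ∈ S, h (1, x) = x) (hl : HasLog φ S₀) : HasLog φ S := by
  apply of_subtype
  have c1 : Continuous fun z : unitInterval × S => h ((z.1 : ℝ), (z.2 : X)) :=
    hc.comp_continuous (by fun_prop) fun z => ⟨z.1.2, z.2.2⟩
  have c2 : Continuous fun z : unitInterval × S => φ (h ((z.1 : ℝ), (z.2 : X))) :=
    hφ.comp_continuous c1 fun z => hm _ z.1.2 _ z.2.2
  have l0 : HasLog (fun x : S => φ (h (((0 : unitInterval) : ℝ), (x : X)))) univ :=
    hl.comp (c1.comp (Continuous.prodMk_right (0 : unitInterval))).continuousOn fun x _ => e0 _ x.2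
  have l1 := homotopy c2 (fun z => h0 _ (hm _ z.1.2 _ z.2.2)) l0
  have l2 := l1.comp (g := fun x : S => ((1 : unitInterval), x)) (T := univ) (by fun_prop) (mapsTo_univ _ _)
  exact l2.congr fun x _ => by simp [e1 _ x.2]

end HasLog

/-- a continuous function with values in `2πi ℤ` on a preconnected set is constant -/
theorem const_of_exp_eq_one {ψ : X → ℂ} {S : Set X} (hS : IsPreconnected S) (hψ : ContinuousOn ψ S)
    (h : ∀ x ∈ S, exp (ψ x) = 1) {x y : X} (hx : x ∈ S) (hy : y ∈ S) : ψ x = ψ y := by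
  have hd : IsDiscrete (AddSubgroup.zmultiples (2 * π * I : ℂ) : Set ℂ) :=
    ⟨NormedSpace.discreteTopology_zmultiples _⟩
  refine hS.constant_of_mapsTo hd hψ (fun z hz => ?_) hx hy
  obtain ⟨n, hn⟩ := exp_eq_one_iff.1 (h z hz)
  exact ⟨n, by simp [hn]⟩

/-- two closed sets with preconnected intersection -/
theorem HasLog.union {φ : X → ℂ} {A B : Set X} (hA : IsClosed A) (hB : IsClosed B)
    (hAB : IsPreconnected (A ∩ B)) (h1 : HasLog φ A) (h2 : HasLog φ B) : HasLog φ (A ∪ B) := by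
  classical
  obtain ⟨ψ, c1, e1⟩ := h1
  obtain ⟨ψ', c2, e2⟩ := h2
  obtain ⟨c, hc1, hc⟩ : ∃ c : ℂ, exp c = 1 ∧ ∀ x ∈ A ∩ B, ψ x = ψ' x + c := by
    have hh : ∀ x ∈ A ∩ B, exp (ψ x - ψ' x) = 1 := fun x hx => by
      rw [exp_sub, ← e1 x hx.1, e2 x hx.2, div_self (exp_ne_zero _)]
    rcases (A ∩ B).eq_empty_or_nonempty with h | ⟨x₀, hx₀⟩
    · exact ⟨0, exp_zero, fun x hx => by simp [h] at hx⟩
    · refine ⟨ψ x₀ - ψ' x₀, hh _ hx₀, fun x hx => ?_⟩
      have := const_of_exp_eq_one (ψ := fun x => ψ x - ψ' x) hAB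
        ((c1.mono inter_subset_left).sub (c2.mono inter_subset_right)) hh hx hx₀
      linear_combination this
  refine ⟨fun x => if x ∈ A then ψ x else ψ' x + c, ?_, fun x hx => ?_⟩
  · refine ContinuousOn.union_of_isClosed ?_ ?_ hA hB
    · exact c1.congr fun x hx => by simp [hx]
    · refine (c2.add continuousOn_const (g := fun _ => c)).congr fun x hx => ?_
      by_cases hxA : x ∈ A
      · simp [hxA, hc x ⟨hxA, hx⟩]
      · simp [hxA]
  · by_cases hxA : x ∈ A
    · simp [hxA, e1 x hxA]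
    · simp [hxA, exp_add, hc1, e2 x (hx.resolve_left hxA)]

theorem isOpenQuotientMap_circleExp : IsOpenQuotientMap Circle.exp :=
  ⟨Circle.exp_surjective, Circle.exp.continuous, isLocalHomeomorph_circleExp.isOpenMap⟩

theorem circle_zpow_exp (t : ℝ) (j : ℤ) : ((Circle.exp t : ℂ)) ^ j = exp (j * (t * I)) := by
  rw [Circle.coe_exp, exp_int_mul]

/-- the degree in the circle direction -/
theorem exists_deg [PreconnectedSpace X] {φ : X × Circle → ℂ} (hc : Continuous φ)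
    (h0 : ∀ z, φ z ≠ 0) (hl : HasLog (fun x => φ (x, 1)) univ) :
    ∃ j : ℤ, HasLog (fun z : X × Circle => φ z * ((z.2 : ℂ) ^ j)⁻¹) univ := by
  rcases isEmpty_or_nonempty X with hX | ⟨⟨x₀⟩⟩
  · exact ⟨0, 0, continuousOn_const, fun z _ => (hX.false z.1).elim⟩
  let e : X × ℝ → X × Circle := fun z => (z.1, Circle.exp z.2)
  have he : IsOpenQuotientMap e := IsOpenQuotientMap.id.prodMap isOpenQuotientMap_circleExp
  have l1 : HasLog (fun z => φ (e z)) (univ : Set (X × ℝ)) := by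
    refine HasLog.of_deform (S' := univ) (S₀ := univ ×ˢ {0})
      (hc.comp he.continuous).continuousOn (fun z _ => h0 _)
      (h := fun w => (w.2.1, w.1 * w.2.2)) (by fun_prop) (fun _ _ _ _ => mem_univ _)
      (fun x _ => by simp) (fun x _ => by simp) ?_
    refine (hl.comp (g := Prod.fst) (by fun_prop) (mapsTo_univ _ _)).congr ?_
    rintro ⟨x, t⟩ ⟨-, ht⟩
    obtain rfl : t = 0 := ht
    simp [e]
  obtain ⟨Λ, cΛ, eΛ⟩ := l1
  have cΛ' : Continuous Λ := continuousOn_univ.1 cΛ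
  have hper : ∀ z : X × ℝ, exp (Λ (z.1, z.2 + 2 * π) - Λ z) = 1 := fun z => by
    rw [exp_sub, ← eΛ _ (mem_univ _), ← eΛ _ (mem_univ _)]
    simp only [e, Circle.exp_add_two_pi]
    exact div_self (h0 _)
  obtain ⟨j, hj⟩ := exp_eq_one_iff.1 (hper (x₀, 0))
  have hj' : ∀ z : X × ℝ, Λ (z.1, z.2 + 2 * π) - Λ z = j * (2 * π * I) := fun z => by
    rw [← hj]
    exact const_of_exp_eq_one (S := univ) isPreconnected_univ
      (ψ := fun z : X × ℝ => Λ (z.1, z.2 + 2 * π) - Λ z) (by fun_prop) (fun z _ => hper z)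
      (mem_univ _) (mem_univ _)
  let Λ' : X × ℝ → ℂ := fun z => Λ z - j * (z.2 * I)
  have hp : ∀ x, Periodic (fun t => Λ' (x, t)) (2 * π) := fun x t => by
    have := hj' (x, t)
    simp only [Λ'] at this ⊢
    push_cast
    linear_combination this
  let ψ : X × Circle → ℂ := fun z => Λ' (z.1, arg z.2)
  have hψ : ∀ z, ψ (e z) = Λ' z := fun z => by
    obtain ⟨m, hm⟩ := Circle.exp_eq_exp.1 (Circle.exp_arg (Circle.exp z.2))
    simp only [ψ, e, hm]
    exact (hp z.1).int_mul m z.2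
  refine ⟨j, ψ, ?_, fun z _ => ?_⟩
  · refine (he.isQuotientMap.continuous_iff.2 ?_).continuousOn
    have : ψ ∘ e = Λ' := funext hψ
    rw [this]
    fun_prop
  · obtain ⟨w, rfl⟩ := he.surjective z
    have h1 : φ (e w) = exp (Λ w) := eΛ w (mem_univ _)
    show φ (e w) * ((Circle.exp w.2 : ℂ) ^ j)⁻¹ = exp (ψ (e w))
    rw [hψ, h1, circle_zpow_exp]
    simp only [Λ', exp_sub]
    rfl

/-- `u ^ j` has a logarithm on the circle only for `j = 0` -/
theorem deg_unique {j : ℤ} (h : HasLog (fun u : Circle => (u : ℂ) ^ j) univ) : j = 0 := by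
  obtain ⟨ψ, c1, e1⟩ := h
  have c1' : Continuous ψ := continuousOn_univ.1 c1
  have h1 : ∀ t : ℝ, exp (ψ (Circle.exp t) - j * (t * I)) = 1 := fun t => by
    have h1 : (Circle.exp t : ℂ) ^ j = exp (ψ (Circle.exp t)) := e1 _ (mem_univ _)
    rw [exp_sub, ← h1, circle_zpow_exp, div_self (exp_ne_zero _)]
  have h2 := const_of_exp_eq_one (S := univ) isPreconnected_univ
    (ψ := fun t : ℝ => ψ (Circle.exp t) - j * (t * I)) (by fun_prop) (fun t _ => h1 t)
    (mem_univ (2 * π)) (mem_univ 0)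
  simp only [Circle.exp_two_pi, Circle.exp_zero, ofReal_zero, zero_mul, mul_zero, sub_zero,
    sub_eq_self, mul_eq_zero, Int.cast_eq_zero, ofReal_eq_zero, I_ne_zero, or_false] at h2
  rcases h2 with h | h | h
  · exact h
  · norm_num at h
  · exact absurd h Real.pi_ne_zero

theorem exists_deg_circle {φ : Circle → ℂ} (hc : Continuous φ) (h0 : ∀ z, φ z ≠ 0) :
    ∃ j : ℤ, HasLog (fun u : Circle => φ u * ((u : ℂ) ^ j)⁻¹) univ := by
  obtain ⟨j, hj⟩ := exists_deg (X := Unit) (φ := fun z => φ z.2) (by fun_prop) (fun z => h0 _)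
    (HasLog.const (h0 1) _)
  exact ⟨j, hj.comp (g := fun u : Circle => ((), u)) (T := univ) (by fun_prop) (mapsTo_univ _ _)⟩

theorem continuous_circle_zpow (j : ℤ) : Continuous fun u : Circle => (u : ℂ) ^ j :=
  (continuous_subtype_val (p := fun z : ℂ => z ∈ Submonoid.unitSphere ℂ)).zpow₀ j
    fun u => Or.inl (Circle.coe_ne_zero u)

/-- the two degrees of a map on the torus -/
theorem exists_deg_torus {φ : Circle × Circle → ℂ} (hc : Continuous φ) (h0 : ∀ z, φ z ≠ 0) :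
    ∃ c d : ℤ, HasLog (fun z : Circle × Circle => φ z * ((z.1 : ℂ) ^ c * (z.2 : ℂ) ^ d)⁻¹) univ := by
  obtain ⟨c, hc'⟩ := exists_deg_circle (φ := fun u => φ (u, 1)) (by fun_prop) fun u => h0 _
  have n1 : ∀ (u : Circle) (j : ℤ), (u : ℂ) ^ j ≠ 0 := fun u j => zpow_ne_zero _ u.coe_ne_zero
  obtain ⟨d, hd⟩ := exists_deg (X := Circle) (φ := fun z => φ z * ((z.1 : ℂ) ^ c)⁻¹)
    (hc.mul (((continuous_circle_zpow c).comp continuous_fst).inv₀ fun z => n1 _ _))
    (fun z => mul_ne_zero (h0 z) (inv_ne_zero (n1 _ _))) hc'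
  exact ⟨c, d, hd.congr fun z _ => by rw [mul_inv, mul_assoc]⟩

theorem deg_unique_torus {c d : ℤ}
    (h : HasLog (fun z : Circle × Circle => (z.1 : ℂ) ^ c * (z.2 : ℂ) ^ d) univ) : c = 0 ∧ d = 0 := by
  constructor
  · apply deg_unique
    exact (h.comp (g := fun u : Circle => (u, (1 : Circle))) (T := univ) (by fun_prop)
      (mapsTo_univ _ _)).congr fun u _ => by simp
  · apply deg_unique
    exact (h.comp (g := fun u : Circle => ((1 : Circle), u)) (T := univ) (by fun_prop)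
      (mapsTo_univ _ _)).congr fun u _ => by simp

/-! ### spheres -/

section sphere

variable {E : Type*} [NormedAddCommGroup E] [InnerProductSpace ℝ E]

/-- the unit sphere of a subspace -/
def Sph (W : Submodule ℝ E) : Set E := {x | x ∈ W ∧ ‖x‖ = 1}

/-- a closed hemisphere -/
def Hem (W : Submodule ℝ E) (n : E) : Set E := {x | x ∈ Sph W ∧ 0 ≤ inner ℝ n x}

/-- the contraction of a hemisphere to its pole -/
def hcon (n : E) (z : ℝ × E) : E := (‖(1 - z.1) • n + z.1 • z.2‖⁻¹ : ℝ) • ((1 - z.1) • n + z.1 • z.2)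

theorem hcon_ne {W : Submodule ℝ E} {n : E} (hn : n ∈ Sph W) {t : ℝ} (ht : t ∈ Icc (0:ℝ) 1) {x : E}
    (hx : x ∈ Hem W n) : (1 - t) • n + t • x ≠ 0 := by
  intro h
  have h1 : inner ℝ n ((1 - t) • n + t • x) = 0 := by rw [h, inner_zero_right]
  rw [inner_add_right, real_inner_smul_right, real_inner_smul_right, real_inner_self_eq_norm_sq,
    hn.2] at h1
  have h2 : 0 ≤ t * inner ℝ n x := mul_nonneg ht.1 hx.2
  have h3 : t = 1 := by nlinarith [ht.2]
  rw [h3] at h
  simp only [sub_self, zero_smul, one_smul, zero_add] at h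
  have := hx.1.2
  rw [h, norm_zero] at this
  exact zero_ne_one this

theorem hcon_cont {W : Submodule ℝ E} {n : E} (hn : n ∈ Sph W) :
    ContinuousOn (hcon n) (Icc 0 1 ×ˢ Hem W n) := by
  have c : Continuous fun z : ℝ × E => (1 - z.1) • n + z.1 • z.2 := by fun_prop
  exact (c.norm.continuousOn.inv₀ fun z hz => norm_ne_zero_iff.2 (hcon_ne hn hz.1 hz.2)).smul
    c.continuousOn

theorem hcon_mem {W : Submodule ℝ E} {n : E} (hn : n ∈ Sph W) {t : ℝ} (ht : t ∈ Icc (0:ℝ) 1) {x : E}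
    (hx : x ∈ Hem W n) : hcon n (t, x) ∈ Sph W := by
  have h := norm_ne_zero_iff.2 (hcon_ne hn ht hx)
  refine ⟨W.smul_mem _ (W.add_mem (W.smul_mem _ hn.1) (W.smul_mem _ hx.1.1)), ?_⟩
  simp only [hcon]
  rw [norm_smul, norm_inv, norm_norm, inv_mul_cancel₀ h]

theorem hcon_zero {W : Submodule ℝ E} {n : E} (hn : n ∈ Sph W) (x : E) : hcon n (0, x) = n := by
  simp [hcon, hn.2]

theorem hcon_one {W : Submodule ℝ E} {x : E} (hx : x ∈ Sph W) (n : E) : hcon n (1, x) = x := by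
  simp [hcon, hx.2]

theorem neg_mem_sph {W : Submodule ℝ E} {n : E} (hn : n ∈ Sph W) : -n ∈ Sph W :=
  ⟨W.neg_mem hn.1, by rw [norm_neg, hn.2]⟩

theorem hem_union (W : Submodule ℝ E) (n : E) : Hem W n ∪ Hem W (-n) = Sph W := by
  ext x
  simp only [Hem, mem_union, mem_ofPred_eq, inner_neg_left, Left.nonneg_neg_iff]
  exact ⟨fun h => h.elim And.left And.left, fun h => (le_total 0 _).imp (⟨h, ·⟩) (⟨h, ·⟩)⟩

theorem hem_inter (W : Submodule ℝ E) (n : E) : Hem W n ∩ Hem W (-n) = Sph (W ⊓ (ℝ ∙ n)ᗮ) := by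
  ext x
  simp only [Hem, Sph, mem_inter_iff, mem_ofPred_eq, inner_neg_left, Left.nonneg_neg_iff,
    Submodule.mem_inf, Submodule.mem_orthogonal_singleton_iff_inner_right]
  constructor
  · rintro ⟨⟨⟨h1, h2⟩, h3⟩, -, h4⟩
    exact ⟨⟨h1, le_antisymm h4 h3⟩, h2⟩
  · rintro ⟨⟨h1, h3⟩, h2⟩
    exact ⟨⟨⟨h1, h2⟩, h3.ge⟩, ⟨h1, h2⟩, h3.le⟩

variable [FiniteDimensional ℝ E]

theorem isClosed_sph (W : Submodule ℝ E) : IsClosed (Sph W) :=
  W.closed_of_finiteDimensional.inter (isClosed_eq continuous_norm continuous_const)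

theorem isClosed_hem (W : Submodule ℝ E) (n : E) : IsClosed (Hem W n) :=
  (isClosed_sph W).inter (isClosed_le (f := fun _ => (0:ℝ)) (g := fun x => inner ℝ n x)
    continuous_const (by fun_prop))

theorem isCompact_sph (W : Submodule ℝ E) : IsCompact (Sph W) :=
  (isCompact_sphere (0 : E) 1).of_isClosed_subset (isClosed_sph W) fun x hx => by simpa using hx.2

theorem isCompact_hem (W : Submodule ℝ E) (n : E) : IsCompact (Hem W n) :=
  (isCompact_sph W).of_isClosed_subset (isClosed_hem W n) fun _ hx => hx.1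

theorem exists_mem_sph {W : Submodule ℝ E} (h : 0 < Module.finrank ℝ W) : ∃ n, n ∈ Sph W := by
  have : Nontrivial W := Module.finrank_pos_iff.1 h
  obtain ⟨w, hw⟩ := exists_ne (0 : W)
  have hw' : ‖(w : E)‖ ≠ 0 := by simpa using hw
  exact ⟨(‖(w : E)‖⁻¹ : ℝ) • (w : E), W.smul_mem _ w.2, by
    rw [norm_smul, norm_inv, norm_norm, inv_mul_cancel₀ hw']⟩

theorem finrank_inf_orth {W : Submodule ℝ E} {n : E} (hn : n ∈ Sph W) :
    Module.finrank ℝ (W ⊓ (ℝ ∙ n)ᗮ : Submodule ℝ E) + 1 = Module.finrank ℝ W := by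
  have hn0 : n ≠ 0 := fun h => by simpa [h] using hn.2
  have hle : (ℝ ∙ n) ≤ W := (Submodule.span_singleton_le_iff_mem _ _).2 hn.1
  have := Submodule.finrank_add_inf_finrank_orthogonal hle
  rw [finrank_span_singleton hn0, inf_comm] at this
  omega

theorem isPreconnected_sph {W : Submodule ℝ E} (h : 1 < Module.finrank ℝ W) :
    IsPreconnected (Sph W) := by
  have h1 : (1 : Cardinal) < Module.rank ℝ W := by
    rw [← Module.finrank_eq_rank]; exact_mod_cast h
  have h2 := (isPreconnected_sphere h1 (0 : W) 1).image (Subtype.val : W → E)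
    continuous_subtype_val.continuousOn
  convert h2 using 1
  ext x
  simp only [Sph, mem_ofPred_eq, mem_image, mem_sphere_iff_norm, sub_zero]
  exact ⟨fun hx => ⟨⟨x, hx.1⟩, hx.2, rfl⟩, by rintro ⟨y, hy, rfl⟩; exact ⟨y.2, hy⟩⟩

omit [FiniteDimensional ℝ E] in
theorem hasLog_hem {W : Submodule ℝ E} {n : E} (hn : n ∈ Sph W) {φ : E → ℂ}
    (hφ : ContinuousOn φ (Sph W)) (h0 : ∀ x ∈ Sph W, φ x ≠ 0) : HasLog φ (Hem W n) :=
  HasLog.of_deform (S₀ := {n}) hφ h0 (hcon_cont hn) (fun _ ht _ hx => hcon_mem hn ht hx)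
    (fun x _ => hcon_zero hn x) (fun _ hx => hcon_one hx.1 n)
    ((HasLog.const (h0 n hn) _).congr fun x hx => by rw [mem_singleton_iff.1 hx])

/-- on a sphere of dimension at least two every nowhere vanishing function has a logarithm -/
theorem hasLog_sph {W : Submodule ℝ E} (h : 2 < Module.finrank ℝ W) {φ : E → ℂ}
    (hφ : ContinuousOn φ (Sph W)) (h0 : ∀ x ∈ Sph W, φ x ≠ 0) : HasLog φ (Sph W) := by
  obtain ⟨n, hn⟩ := exists_mem_sph (W := W) (by omega)
  rw [← hem_union W n]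
  refine HasLog.union (isClosed_hem _ _) (isClosed_hem _ _) ?_ (hasLog_hem hn hφ h0)
    (hasLog_hem (neg_mem_sph hn) hφ h0)
  rw [hem_inter]
  have := finrank_inf_orth hn
  exact isPreconnected_sph (by omega)

end sphere

end

end Crest.Agent.X212.Pic56
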