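import Crest.Agent.X212.Pic56.Log

/-!
# X212 / Pic56 / Line (helper56): continuous line bundles as rank one projector fields

* `IsLine P S`, `IsFrame P s S` : a field of rank one idempotents on `S`, a nowhere zero section;
* `IsLine.ratio` : two frames differ by a continuous function;
* `IsLine.patch` : frames on two closed sets whose ratio has a logarithm give one frame;
* `IsLine.deform` : frames along a deformation of a compact set;
* `frame_sphere`, `frame_circle`, `frame_solid` : lines on `S^n` (`n ≥ 3`), `S^1`, `D^2 × S^1` are trivial.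
-/

set_option autoImplicit false

open Set Function Complex Metric
open scoped Real Topology

namespace Crest.Agent.X212.Pic56

noncomputable section

variable {V : Type*} [NormedAddCommGroup V] [NormedSpace ℂ V]

section top

variable {X : Type*} [TopologicalSpace X]

/-- a continuous field of rank one idempotents on `S` -/
structure IsLine (P : X → V →L[ℂ] V) (S : Set X) : Prop where
  cont : ContinuousOn P S
  idem : ∀ x ∈ S, ∀ v, P x (P x v) = P x v
  rank : ∀ x ∈ S, ∃ e, e ≠ 0 ∧ P x e = e ∧ ∀ v, P x v = v → ∃ c : ℂ, v = c • e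

/-- a nowhere zero continuous section on `S` -/
structure IsFrame (P : X → V →L[ℂ] V) (s : X → V) (S : Set X) : Prop where
  cont : ContinuousOn s S
  sec : ∀ x ∈ S, P x (s x) = s x
  ne : ∀ x ∈ S, s x ≠ 0

variable {P : X → V →L[ℂ] V} {S : Set X}

theorem IsLine.mono (h : IsLine P S) {T : Set X} (hT : T ⊆ S) : IsLine P T :=
  ⟨h.cont.mono hT, fun x hx => h.idem x (hT hx), fun x hx => h.rank x (hT hx)⟩

theorem IsLine.comp {Y : Type*} [TopologicalSpace Y] (h : IsLine P S) {g : Y → X} {T : Set Y}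
    (hg : ContinuousOn g T) (hm : MapsTo g T S) : IsLine (fun y => P (g y)) T :=
  ⟨h.cont.comp hg hm, fun _ hy => h.idem _ (hm hy), fun _ hy => h.rank _ (hm hy)⟩

theorem IsLine.congr (h : IsLine P S) {Q : X → V →L[ℂ] V} (e : ∀ x ∈ S, Q x = P x) : IsLine Q S :=
  ⟨h.cont.congr e, fun x hx => by rw [e x hx]; exact h.idem x hx,
    fun x hx => by rw [e x hx]; exact h.rank x hx⟩

theorem IsFrame.mono {s : X → V} (h : IsFrame P s S) {T : Set X} (hT : T ⊆ S) : IsFrame P s T :=
  ⟨h.cont.mono hT, fun x hx => h.sec x (hT hx), fun x hx => h.ne x (hT hx)⟩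

theorem IsFrame.comp {Y : Type*} [TopologicalSpace Y] {s : X → V} (h : IsFrame P s S) {g : Y → X}
    {T : Set Y} (hg : ContinuousOn g T) (hm : MapsTo g T S) :
    IsFrame (fun y => P (g y)) (fun y => s (g y)) T :=
  ⟨h.cont.comp hg hm, fun _ hy => h.sec _ (hm hy), fun _ hy => h.ne _ (hm hy)⟩

theorem IsFrame.congr {s : X → V} (h : IsFrame P s S) {Q : X → V →L[ℂ] V} {s' : X → V}
    (e : ∀ x ∈ S, Q x = P x) (e' : ∀ x ∈ S, s' x = s x) : IsFrame Q s' S :=
  ⟨h.cont.congr e', fun x hx => by rw [e x hx, e' x hx]; exact h.sec x hx,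
    fun x hx => by rw [e' x hx]; exact h.ne x hx⟩

theorem IsFrame.smul {s : X → V} (h : IsFrame P s S) {φ : X → ℂ} (hφ : ContinuousOn φ S)
    (h0 : ∀ x ∈ S, φ x ≠ 0) : IsFrame P (fun x => φ x • s x) S :=
  ⟨hφ.smul h.cont, fun x hx => by rw [map_smul, h.sec x hx],
    fun x hx => smul_ne_zero (h0 x hx) (h.ne x hx)⟩

/-- every vector of the line is a multiple of a nonzero one -/
theorem IsLine.exists_smul (h : IsLine P S) {x : X} (hx : x ∈ S) {v w : V} (hv : P x v = v)
    (hv0 : v ≠ 0) (hw : P x w = w) : ∃ c : ℂ, w = c • v := by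
  obtain ⟨e, -, -, he⟩ := h.rank x hx
  obtain ⟨a, rfl⟩ := he v hv
  obtain ⟨b, rfl⟩ := he w hw
  have ha : a ≠ 0 := fun h0 => hv0 (by rw [h0, zero_smul])
  exact ⟨b / a, by rw [smul_smul, div_mul_cancel₀ _ ha]⟩

/-- a section is a continuous multiple of a frame -/
theorem IsLine.ratio_sec (h : IsLine P S) {s s' : X → V} (hs : IsFrame P s S)
    (c' : ContinuousOn s' S) (h' : ∀ x ∈ S, P x (s' x) = s' x) :
    ∃ φ : X → ℂ, ContinuousOn φ S ∧ ∀ x ∈ S, s' x = φ x • s x := by
  classical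
  have h1 : ∀ x, ∃ c : ℂ, x ∈ S → s' x = c • s x := fun x => by
    by_cases hx : x ∈ S
    · obtain ⟨c, hc⟩ := h.exists_smul hx (hs.sec x hx) (hs.ne x hx) (h' x hx)
      exact ⟨c, fun _ => hc⟩
    · exact ⟨0, fun hh => absurd hh hx⟩
  choose φ hφ using h1
  refine ⟨φ, fun x₀ hx₀ => ?_, hφ⟩
  obtain ⟨l, hl⟩ := SeparatingDual.exists_ne_zero (R := ℂ) (hs.ne x₀ hx₀)
  have c1 : ContinuousWithinAt (fun x => l (s x)) S x₀ :=
    l.continuous.continuousAt.comp_continuousWithinAt (hs.cont x₀ hx₀)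
  have c2 : ContinuousWithinAt (fun x => l (s' x)) S x₀ :=
    l.continuous.continuousAt.comp_continuousWithinAt (c' x₀ hx₀)
  have e : ∀ x ∈ S, l (s x) ≠ 0 → φ x = l (s' x) / l (s x) := fun x hx hn => by
    rw [hφ x hx, map_smul, smul_eq_mul, mul_div_cancel_right₀ _ hn]
  refine (c2.div c1 hl).congr_of_eventuallyEq ?_ (e x₀ hx₀ hl)
  filter_upwards [c1.eventually_ne hl, self_mem_nhdsWithin] with x h1 h2 using e x h2 h1

/-- two frames differ by a nowhere zero continuous function -/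
theorem IsLine.ratio (h : IsLine P S) {s s' : X → V} (hs : IsFrame P s S) (hs' : IsFrame P s' S) :
    ∃ φ : X → ℂ, ContinuousOn φ S ∧ (∀ x ∈ S, φ x ≠ 0) ∧ ∀ x ∈ S, s' x = φ x • s x := by
  obtain ⟨φ, h1, h2⟩ := h.ratio_sec hs hs'.cont hs'.sec
  exact ⟨φ, h1, fun x hx h0 => hs'.ne x hx (by rw [h2 x hx, h0, zero_smul]), h2⟩

/-- frames on two closed sets which agree on the intersection -/
theorem IsFrame.glue {A B : Set X} (hA : IsClosed A) (hB : IsClosed B) {s s' : X → V}
    (hs : IsFrame P s A) (hs' : IsFrame P s' B) (e : ∀ x ∈ A ∩ B, s x = s' x) :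
    ∃ t, IsFrame P t (A ∪ B) ∧ (∀ x ∈ A, t x = s x) ∧ ∀ x ∈ B, t x = s' x := by
  classical
  have eA : ∀ x ∈ A, (if x ∈ A then s x else s' x) = s x := fun x hx => if_pos hx
  have eB : ∀ x ∈ B, (if x ∈ A then s x else s' x) = s' x := fun x hx => by
    by_cases hxA : x ∈ A
    · rw [if_pos hxA, e x ⟨hxA, hx⟩]
    · rw [if_neg hxA]
  have fA := hs.congr (Q := P) (fun _ _ => rfl) eA
  have fB := hs'.congr (Q := P) (fun _ _ => rfl) eB
  exact ⟨_, ⟨fA.cont.union_of_isClosed fB.cont hA hB, fun x hx => hx.elim (fA.sec x) (fB.sec x),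
    fun x hx => hx.elim (fA.ne x) (fB.ne x)⟩, eA, eB⟩

/-- Tietze for complex functions on a closed set -/
theorem exists_extend [NormalSpace X] {A : Set X} (hA : IsClosed A) {ψ : X → ℂ}
    (hψ : ContinuousOn ψ A) : ∃ Ψ : X → ℂ, Continuous Ψ ∧ ∀ x ∈ A, Ψ x = ψ x := by
  obtain ⟨g, hg⟩ := ContinuousMap.exists_restrict_eq hA
    ⟨A.domRestrict ψ, continuousOn_iff_continuous_domRestrict.1 hψ⟩
  exact ⟨g, g.continuous, fun x hx => DFunLike.congr_fun hg ⟨x, hx⟩⟩

/-- frames on two closed sets, all units on the intersection having logarithms -/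
theorem IsLine.patch [NormalSpace X] {A B : Set X} (hA : IsClosed A) (hB : IsClosed B)
    (h : IsLine P (A ∩ B)) {s s' : X → V} (hs : IsFrame P s A) (hs' : IsFrame P s' B)
    (hl : ∀ φ : X → ℂ, ContinuousOn φ (A ∩ B) → (∀ x ∈ A ∩ B, φ x ≠ 0) →
      (∀ x ∈ A ∩ B, s x = φ x • s' x) → HasLog φ (A ∩ B)) :
    ∃ t, IsFrame P t (A ∪ B) ∧ ∀ x ∈ A, t x = s x := by
  obtain ⟨φ, h1, h2, h3⟩ := h.ratio (hs'.mono inter_subset_right) (hs.mono inter_subset_left)
  obtain ⟨ψ, c1, e1⟩ := hl φ h1 h2 h3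
  obtain ⟨Ψ, c2, e2⟩ := exists_extend (hA.inter hB) c1
  obtain ⟨t, ht, h4, -⟩ := IsFrame.glue hA hB hs
    (hs'.smul (φ := fun x => exp (Ψ x)) (by fun_prop) fun x _ => exp_ne_zero _)
    fun x hx => by rw [h3 x hx, e1 x hx, e2 x hx]
  exact ⟨t, ht, h4⟩

end top

section metric

variable {X : Type*} [PseudoMetricSpace X] {P : X → V →L[ℂ] V} {S : Set X}

theorem apply_ne_zero_of_close {Q Q' : V →L[ℂ] V} (h : ‖Q' - Q‖ < 1) {v : V} (hv : Q v = v)
    (h0 : v ≠ 0) : Q' v ≠ 0 := by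
  intro h1
  have h2 : (Q' - Q) v = -v := by simp [h1, hv]
  have h3 := (Q' - Q).le_opNorm v
  rw [h2, norm_neg] at h3
  have h4 := norm_pos_iff.2 h0
  nlinarith

/-- frames along a deformation of a compact set -/
theorem IsLine.deform (hP : IsLine P S) {K S₀ : Set X} (hK : IsCompact K) {h : ℝ × X → X}
    (hc : ContinuousOn h (Icc 0 1 ×ˢ K)) (hm : ∀ t ∈ Icc (0:ℝ) 1, ∀ x ∈ K, h (t, x) ∈ S)
    (e0 : ∀ x ∈ K, h (0, x) ∈ S₀) (e1 : ∀ x ∈ K, h (1, x) = x) {s : X → V} (hs : IsFrame P s S₀) :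
    ∃ t, IsFrame P t K := by
  have cQ : ContinuousOn (fun z => P (h z)) (Icc 0 1 ×ˢ K) :=
    hP.cont.comp hc fun z hz => hm _ hz.1 _ hz.2
  have uQ := (isCompact_Icc.prod hK).uniformContinuousOn_of_continuous cQ
  obtain ⟨δ, hδ, hu⟩ := Metric.uniformContinuousOn_iff.1 uQ 1 one_pos
  obtain ⟨N, hN⟩ := exists_nat_one_div_lt hδ
  have hN0 : (0:ℝ) < (N:ℝ) + 1 := by positivity
  have hI : ∀ k : ℕ, k ≤ N + 1 → (k:ℝ) / (N + 1) ∈ Icc (0:ℝ) 1 := fun k hk =>
    ⟨by positivity, (div_le_one hN0).2 (by exact_mod_cast hk)⟩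
  have ct : ∀ t ∈ Icc (0:ℝ) 1, ContinuousOn (fun x => h (t, x)) K := fun t ht =>
    hc.comp (by fun_prop) fun x hx => ⟨ht, hx⟩
  have key : ∀ k : ℕ, k ≤ N + 1 → ∃ t, IsFrame (fun x => P (h ((k:ℝ) / (N + 1), x))) t K := by
    intro k
    induction k with
    | zero =>
      intro _
      simp only [Nat.cast_zero, zero_div]
      exact ⟨_, hs.comp (ct 0 ⟨le_rfl, zero_le_one⟩) e0⟩
    | succ k ih =>
      intro hk
      obtain ⟨t, ht⟩ := ih (by omega)
      refine ⟨fun x => P (h (((k + 1 : ℕ):ℝ) / (N + 1), x)) (t x), ?_, fun x hx => ?_, fun x hx => ?_⟩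
      · exact (hP.cont.comp (ct _ (hI _ hk)) fun x hx => hm _ (hI _ hk) _ hx).clm_apply ht.cont
      · exact hP.idem _ (hm _ (hI _ hk) _ hx) _
      · refine apply_ne_zero_of_close ?_ (ht.sec x hx) (ht.ne x hx)
        rw [← dist_eq_norm]
        refine hu (_, x) ⟨hI _ hk, hx⟩ (_, x) ⟨hI _ (by omega), hx⟩ ?_
        rw [Prod.dist_eq, dist_self, Real.dist_eq, max_lt_iff]
        refine ⟨?_, hδ⟩
        rw [← sub_div]
        push_cast
        rw [add_sub_cancel_left, abs_of_pos (by positivity)]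
        exact hN
  obtain ⟨t, ht⟩ := key (N + 1) le_rfl
  refine ⟨t, ht.congr (fun x hx => ?_) fun _ _ => rfl⟩
  push_cast
  rw [div_self hN0.ne', e1 x hx]

theorem IsLine.frame_singleton {X : Type*} [TopologicalSpace X] {P : X → V →L[ℂ] V} {S : Set X}
    (hP : IsLine P S) {x : X} (hx : x ∈ S) : ∃ s, IsFrame P s {x} := by
  obtain ⟨e, h1, h2, -⟩ := hP.rank x hx
  exact ⟨fun _ => e, continuousOn_const, fun y hy => by rw [mem_singleton_iff.1 hy, h2],
    fun _ _ => h1⟩

end metric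

section sphere

variable {E : Type*} [NormedAddCommGroup E] [InnerProductSpace ℝ E] [FiniteDimensional ℝ E]

theorem frame_hem {W : Submodule ℝ E} {n : E} (hn : n ∈ Sph W) {P : E → V →L[ℂ] V}
    (hP : IsLine P (Sph W)) : ∃ s, IsFrame P s (Hem W n) := by
  obtain ⟨s, hs⟩ := hP.frame_singleton hn
  exact hP.deform (isCompact_hem W n) (hcon_cont hn) (fun _ ht _ hx => hcon_mem hn ht hx)
    (fun x _ => hcon_zero hn x) (fun _ hx => hcon_one hx.1 n) hs

theorem finite_sph {W : Submodule ℝ E} (h : Module.finrank ℝ W = 1) : (Sph W).Finite := by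
  obtain ⟨m, hm⟩ := exists_mem_sph (W := W) (by omega)
  refine (toFinite {m, -m}).subset fun x hx => ?_
  have hm0 : (⟨m, hm.1⟩ : W) ≠ 0 := fun h0 => by
    have : m = 0 := congrArg Subtype.val h0
    simpa [this] using hm.2
  obtain ⟨c, hc⟩ := (finrank_eq_one_iff_of_nonzero' _ hm0).1 h ⟨x, hx.1⟩
  have hc' : c • m = x := congrArg Subtype.val hc
  have h1 : |c| = 1 := by
    have := hx.2
    rwa [← hc', norm_smul, hm.2, mul_one] at this
  rcases (abs_eq zero_le_one).1 h1 with h1 | h1 <;> simp [← hc', h1]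

theorem hasLog_finite {X : Type*} [TopologicalSpace X] [T1Space X] {φ : X → ℂ} {S : Set X}
    (hS : S.Finite) (h0 : ∀ x ∈ S, φ x ≠ 0) : HasLog φ S :=
  ⟨fun x => log (φ x), hS.continuousOn _, fun x hx => (exp_log (h0 x hx)).symm⟩

theorem frame_sph {W : Submodule ℝ E} (h : Module.finrank ℝ W = 2 ∨ 3 < Module.finrank ℝ W)
    {P : E → V →L[ℂ] V} (hP : IsLine P (Sph W)) : ∃ s, IsFrame P s (Sph W) := by
  obtain ⟨n, hn⟩ := exists_mem_sph (W := W) (by omega)
  obtain ⟨s, hs⟩ := frame_hem hn hP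
  obtain ⟨s', hs'⟩ := frame_hem (neg_mem_sph hn) hP
  have hr := finrank_inf_orth hn
  obtain ⟨t, ht, -⟩ := IsLine.patch (isClosed_hem W n) (isClosed_hem W (-n))
    (hP.mono fun x hx => hx.1.1) hs hs' (fun φ h1 h2 _ => by
      rw [hem_inter] at h1 h2 ⊢
      rcases h with h | h
      · exact hasLog_finite (finite_sph (by omega)) h2
      · exact hasLog_sph (by omega) h1 h2)
  exact ⟨t, hem_union W n ▸ ht⟩

omit [InnerProductSpace ℝ E] [FiniteDimensional ℝ E] in
theorem exists_extend_sphere {Z : Type*} [TopologicalSpace Z] [Nonempty Z]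
    {g : sphere (0 : E) 1 → Z} (hg : Continuous g) :
    ∃ G : E → Z, ContinuousOn G (sphere 0 1) ∧ ∀ x : sphere (0 : E) 1, G x = g x := by
  have e : ∀ x : sphere (0 : E) 1, Function.extend Subtype.val g (fun _ => Classical.arbitrary Z) x
      = g x := fun x => Subtype.val_injective.extend_apply _ _ x
  refine ⟨_, ?_, e⟩
  rw [continuousOn_iff_continuous_domRestrict]
  exact hg.congr fun x => (e x).symm

omit [FiniteDimensional ℝ E] in
theorem sph_top : Sph (⊤ : Submodule ℝ E) = sphere 0 1 := by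
  ext x; simp [Sph]

/-- on a sphere of dimension at least two every nowhere vanishing function has a logarithm -/
theorem hasLog_sphere (h : 2 < Module.finrank ℝ E) {φ : sphere (0 : E) 1 → ℂ} (hφ : Continuous φ)
    (h0 : ∀ x, φ x ≠ 0) : HasLog φ univ := by
  obtain ⟨G, h1, h2⟩ := exists_extend_sphere hφ
  have h3 : HasLog G (Sph (⊤ : Submodule ℝ E)) := hasLog_sph (by simpa using h) (sph_top (E := E) ▸ h1)
    fun x hx => by
      rw [sph_top] at hx
      rw [h2 ⟨x, hx⟩]; exact h0 _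
  rw [sph_top] at h3
  exact (h3.comp (g := Subtype.val) (T := univ) continuous_subtype_val.continuousOn
    fun x _ => x.2).congr fun x _ => (h2 x).symm

/-- lines on the circle and on spheres of dimension at least three are trivial -/
theorem frame_sphere (h : Module.finrank ℝ E = 2 ∨ 3 < Module.finrank ℝ E)
    {P : sphere (0 : E) 1 → V →L[ℂ] V} (hP : IsLine P univ) : ∃ s, IsFrame P s univ := by
  obtain ⟨G, h1, h2⟩ := exists_extend_sphere (continuousOn_univ.1 hP.cont)
  have h3 : IsLine G (Sph (⊤ : Submodule ℝ E)) := by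
    rw [sph_top]
    exact ⟨h1, fun x hx => by rw [h2 ⟨x, hx⟩]; exact hP.idem _ (mem_univ _),
      fun x hx => by rw [h2 ⟨x, hx⟩]; exact hP.rank _ (mem_univ _)⟩
  obtain ⟨s, hs⟩ := frame_sph (by simpa using h) h3
  rw [sph_top] at hs
  exact ⟨_, (hs.comp (g := Subtype.val) (T := univ) continuous_subtype_val.continuousOn
    fun x _ => x.2).congr (fun x _ => (h2 x).symm) fun _ _ => rfl⟩

end sphere

theorem frame_circle {P : Circle → V →L[ℂ] V} (hP : IsLine P univ) : ∃ s, IsFrame P s univ :=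
  frame_sphere (E := ℂ) (Or.inl Complex.finrank_real_complex) hP

/-- the radial contraction of the closed disc -/
def dcon (t : ℝ) (z : closedBall (0 : ℂ) 1) : closedBall (0 : ℂ) 1 :=
  ⟨((projIcc (0:ℝ) 1 zero_le_one t : ℝ) : ℂ) * z, by
    have h1 := (projIcc (0:ℝ) 1 zero_le_one t).2
    have h2 := mem_closedBall_zero_iff.1 z.2
    rw [mem_closedBall_zero_iff, norm_mul, norm_real, Real.norm_eq_abs, abs_of_nonneg h1.1]
    exact mul_le_one₀ h1.2 (norm_nonneg _) h2⟩

theorem continuous_dcon : Continuous fun w : ℝ × closedBall (0 : ℂ) 1 => dcon w.1 w.2 := by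
  refine Continuous.subtype_mk ?_ _
  have := continuous_projIcc (h := (zero_le_one : (0:ℝ) ≤ 1))
  fun_prop

/-- the centre of the disc -/
def d0 : closedBall (0 : ℂ) 1 := ⟨0, by simp⟩

theorem dcon_zero (z : closedBall (0 : ℂ) 1) : dcon 0 z = d0 := by
  ext; simp [dcon, d0]

theorem dcon_one (z : closedBall (0 : ℂ) 1) : dcon 1 z = z := by
  ext; simp [dcon]

/-- lines on the solid torus are trivial -/
theorem frame_solid {P : closedBall (0 : ℂ) 1 × Circle → V →L[ℂ] V} (hP : IsLine P univ) :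
    ∃ s, IsFrame P s univ := by
  obtain ⟨s, hs⟩ := frame_circle (hP.comp (g := fun y : Circle => (d0, y)) (T := univ)
    (by fun_prop) (mapsTo_univ _ _))
  have := continuous_dcon
  refine hP.deform (S₀ := {d0} ×ˢ univ) isCompact_univ (h := fun w => (dcon w.1 w.2.1, w.2.2))
    (Continuous.continuousOn (.prodMk (this.comp (by fun_prop :
      Continuous fun w : ℝ × closedBall (0 : ℂ) 1 × Circle => (w.1, w.2.1))) (by fun_prop)))
    (fun _ _ _ _ => mem_univ _) (fun x _ => ⟨dcon_zero _, mem_univ _⟩)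
    (fun x _ => by simp [dcon_one]) (s := fun w => s w.2) ?_
  refine (hs.comp (g := Prod.snd) (by fun_prop) (mapsTo_univ _ _)).congr ?_ fun _ _ => rfl
  rintro ⟨z, y⟩ ⟨hz, -⟩
  obtain rfl : z = d0 := hz
  rfl

/-- the degree of a nowhere vanishing function on the solid torus -/
theorem exists_deg_solid {φ : closedBall (0 : ℂ) 1 × Circle → ℂ} (hc : Continuous φ)
    (h0 : ∀ z, φ z ≠ 0) :
    ∃ j : ℤ, HasLog (fun z : closedBall (0 : ℂ) 1 × Circle => φ z * ((z.2 : ℂ) ^ j)⁻¹) univ := by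
  have : PreconnectedSpace (closedBall (0 : ℂ) 1) :=
    isPreconnected_iff_preconnectedSpace.1 (convex_closedBall _ _).isPreconnected
  refine exists_deg hc h0 ?_
  refine HasLog.of_deform (S' := univ) (S₀ := {d0}) (by fun_prop) (fun _ _ => h0 _)
    (h := fun w => dcon w.1 w.2) continuous_dcon.continuousOn (fun _ _ _ _ => mem_univ _)
    (fun x _ => dcon_zero x) (fun x _ => dcon_one x) ?_
  exact (HasLog.const (h0 (d0, 1)) _).congr fun x hx => by rw [mem_singleton_iff.1 hx]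

end

end Crest.Agent.X212.Pic56
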