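import Crest.Agent.X212.Pic56.Line
import Crest.Prelude.Def_DehnFilling

/-!
# X212 / Pic56 / Fill (helper56): lines on a Dehn filling

`HasType T σ P j` : the line `P` on `SlopeFilling T σ` has frames on the exterior and on the filling
torus whose ratio on the boundary torus is `u ^ j` (`u` the coordinate along the knot).

* `exists_type` : every line has a type;
* `HasType.frame`, `HasType.of_frame` : type `0` = globally framed;
* with a Seifert map `θ` (`= v` on the boundary torus): `HasType.add_mul`, `HasType.dvd_sub` :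
  the type is well defined exactly modulo `p`.
-/

set_option autoImplicit false

open Set Function Complex Metric Topology
open scoped Real
open Crest.GeometryTopology.DehnSurgery

namespace Crest.Agent.X212.Pic56

noncomputable section

variable {V : Type*} [NormedAddCommGroup V] [NormedSpace ℂ V]

/-- the coframe of a framed line -/
theorem IsLine.coframe {X : Type*} [TopologicalSpace X] {P : X → V →L[ℂ] V} {S : Set X}
    (h : IsLine P S) {s : X → V} (hs : IsFrame P s S) :
    ∃ l : X → V →L[ℂ] ℂ, ContinuousOn l S ∧ ∀ x ∈ S, ∀ v, P x v = l x v • s x := by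
  classical
  have e : ∀ x ∈ S, ∀ m : V →L[ℂ] ℂ, m (s x) ≠ 0 → ∀ v,
      P x v = ((m (s x))⁻¹ • m.comp (P x)) v • s x := fun x hx m hm v => by
    obtain ⟨c, hc⟩ := h.exists_smul hx (hs.sec x hx) (hs.ne x hx) (h.idem x hx v)
    simp only [_root_.smul_apply, ContinuousLinearMap.comp_apply, smul_eq_mul]
    rw [hc, map_smul, smul_eq_mul, mul_comm c, ← mul_assoc, inv_mul_cancel₀ hm, one_mul]
  have h1 : ∀ x, ∃ l : V →L[ℂ] ℂ, x ∈ S → ∀ v, P x v = l v • s x := fun x => by
    by_cases hx : x ∈ S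
    · obtain ⟨m, hm⟩ := SeparatingDual.exists_ne_zero (R := ℂ) (hs.ne x hx)
      exact ⟨_, fun _ => e x hx m hm⟩
    · exact ⟨0, fun hh => absurd hh hx⟩
  choose l hl using h1
  refine ⟨l, fun x₀ hx₀ => ?_, hl⟩
  obtain ⟨m, hm⟩ := SeparatingDual.exists_ne_zero (R := ℂ) (hs.ne x₀ hx₀)
  have c1 : ContinuousWithinAt (fun x => m (s x)) S x₀ :=
    m.continuous.continuousAt.comp_continuousWithinAt (hs.cont x₀ hx₀)
  have c2 : ContinuousWithinAt (fun x => m.comp (P x)) S x₀ :=
    continuousWithinAt_const.clm_comp (h.cont x₀ hx₀)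
  have e2 : ∀ x ∈ S, m (s x) ≠ 0 → l x = (m (s x))⁻¹ • m.comp (P x) := fun x hx hn => by
    ext v
    exact smul_left_injective ℂ (hs.ne x hx) ((hl x hx v).symm.trans (e x hx m hn v))
  refine ((c1.inv₀ hm).smul c2).congr_of_eventuallyEq ?_ (e2 x₀ hx₀ hm)
  filter_upwards [c1.eventually_ne hm, self_mem_nhdsWithin] with x h1 h2 using e2 x h2 h1

/-- the line spanned by `s`, along the kernel of `l` -/
theorem isLine_smulRight {X : Type*} [TopologicalSpace X] {S : Set X} {s : X → V}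
    {l : X → V →L[ℂ] ℂ} (cs : ContinuousOn s S) (cl : ContinuousOn l S)
    (h : ∀ x ∈ S, l x (s x) = 1) :
    IsLine (fun x => (l x).smulRight (s x)) S ∧ IsFrame (fun x => (l x).smulRight (s x)) s S := by
  have h0 : ∀ x ∈ S, s x ≠ 0 := fun x hx h0 => by simpa [h0] using h x hx
  refine ⟨⟨?_, fun x hx v => by simp [h x hx], fun x hx => ⟨s x, h0 x hx, by simp [h x hx],
    fun v hv => ⟨l x v, hv.symm⟩⟩⟩, cs, fun x hx => by simp [h x hx], h0⟩
  exact ((ContinuousLinearMap.smulRightL ℂ V V).continuous.comp_continuousOn cl).clm_apply cs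

variable (T : ThickKnot) (σ : FillingData)

/-- the exterior in the filling -/
def inE (e : T.exterior) : SlopeFilling T σ := Quot.mk _ (.inl e)

/-- the solid torus in the filling -/
def inV (w : FillingTorus) : SlopeFilling T σ := Quot.mk _ (.inr w)

theorem continuous_inE : Continuous (inE T σ) := continuous_quot_mk.comp continuous_inl

theorem continuous_inV : Continuous (inV T σ) := continuous_quot_mk.comp continuous_inr

/-- a point of the unit circle as a point of the disc -/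
def bd (x : Circle) : closedBall (0 : ℂ) 1 := ⟨x, mem_closedBall_zero_iff.2 (Circle.norm_coe x).le⟩

theorem continuous_bd : Continuous bd :=
  (continuous_subtype_val (p := fun z : ℂ => z ∈ Submonoid.unitSphere ℂ)).subtype_mk _

theorem bd_injective : Injective bd := fun _ _ h =>
  Circle.ext (congrArg (Subtype.val : closedBall (0 : ℂ) 1 → ℂ) h)

/-- the point of the filling torus glued to `τ (u, v)` -/
def bV (z : Circle × Circle) : FillingTorus :=
  (bd (z.1 ^ σ.a * z.2 ^ (-σ.b)), z.1 ^ (-σ.p) * z.2 ^ σ.q)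

/-- the point `τ (u, v)` of the exterior -/
def bE (z : Circle × Circle) : T.exterior := T.boundaryPoint z.1 z.2

theorem continuous_bV : Continuous (bV σ) :=
  (continuous_bd.comp (by fun_prop)).prodMk (by fun_prop)

theorem continuous_bE : Continuous (bE T) :=
  (T.isOpenEmbedding.continuous.comp (continuous_fst.prodMk
    ((continuous_subtype_val (p := fun z : ℂ => z ∈ Submonoid.unitSphere ℂ)).comp
      continuous_snd))).subtype_mk _

theorem uv_fst (u v : Circle) :
    (u ^ σ.a * v ^ (-σ.b)) ^ σ.q * (u ^ (-σ.p) * v ^ σ.q) ^ σ.b = u := by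
  have h1 : σ.a * σ.q + -σ.p * σ.b = 1 := by linear_combination σ.det
  have h2 : -σ.b * σ.q + σ.q * σ.b = 0 := by ring
  rw [mul_zpow, mul_zpow, ← zpow_mul, ← zpow_mul, ← zpow_mul, ← zpow_mul, mul_mul_mul_comm,
    ← zpow_add, ← zpow_add, h1, h2, zpow_one, zpow_zero, mul_one]

theorem uv_snd (u v : Circle) :
    (u ^ σ.a * v ^ (-σ.b)) ^ σ.p * (u ^ (-σ.p) * v ^ σ.q) ^ σ.a = v := by
  have h1 : -σ.b * σ.p + σ.q * σ.a = 1 := by linear_combination σ.det
  have h2 : σ.a * σ.p + -σ.p * σ.a = 0 := by ring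
  rw [mul_zpow, mul_zpow, ← zpow_mul, ← zpow_mul, ← zpow_mul, ← zpow_mul, mul_mul_mul_comm,
    ← zpow_add, ← zpow_add, h1, h2, zpow_one, zpow_zero, one_mul]

theorem xy_fst (x y : Circle) :
    (x ^ σ.q * y ^ σ.b) ^ σ.a * (x ^ σ.p * y ^ σ.a) ^ (-σ.b) = x := by
  have h1 : σ.q * σ.a + σ.p * -σ.b = 1 := by linear_combination σ.det
  have h2 : σ.b * σ.a + σ.a * -σ.b = 0 := by ring
  rw [mul_zpow, mul_zpow, ← zpow_mul, ← zpow_mul, ← zpow_mul, ← zpow_mul, mul_mul_mul_comm,
    ← zpow_add, ← zpow_add, h1, h2, zpow_one, zpow_zero, mul_one]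

theorem xy_snd (x y : Circle) :
    (x ^ σ.q * y ^ σ.b) ^ (-σ.p) * (x ^ σ.p * y ^ σ.a) ^ σ.q = y := by
  have h1 : σ.b * -σ.p + σ.a * σ.q = 1 := by linear_combination σ.det
  have h2 : σ.q * -σ.p + σ.p * σ.q = 0 := by ring
  rw [mul_zpow, mul_zpow, ← zpow_mul, ← zpow_mul, ← zpow_mul, ← zpow_mul, mul_mul_mul_comm,
    ← zpow_add, ← zpow_add, h1, h2, zpow_one, zpow_zero, one_mul]

theorem bV_xy (x y : Circle) : bV σ (x ^ σ.q * y ^ σ.b, x ^ σ.p * y ^ σ.a) = (bd x, y) := by
  simp only [bV, xy_fst, xy_snd]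

theorem bV_injective : Injective (bV σ) := by
  rintro ⟨u, v⟩ ⟨u', v'⟩ h
  have h1 := bd_injective (congrArg Prod.fst h)
  have h2 := congrArg Prod.snd h
  simp only [bV] at h1 h2
  rw [← uv_fst σ u v, ← uv_fst σ u' v', Prod.mk.injEq]
  refine ⟨by rw [h1, h2], ?_⟩
  rw [← uv_snd σ u v, ← uv_snd σ u' v', h1, h2]

theorem bE_injective : Injective fun z => (bE T z : S3) := by
  rintro ⟨u, v⟩ ⟨u', v'⟩ h
  have h1 := T.isOpenEmbedding.injective h
  simp only [Prod.mk.injEq] at h1
  exact Prod.ext h1.1 (Circle.ext h1.2)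

theorem inE_bE (z : Circle × Circle) : inE T σ (bE T z) = inV T σ (bV σ z) := by
  have h := Quot.sound (GlueRel.glue (T := T) (σ := σ) (z.1 ^ σ.a * z.2 ^ (-σ.b))
    (z.1 ^ (-σ.p) * z.2 ^ σ.q))
  rw [uv_fst, uv_snd] at h
  exact h.symm

/-- functions on the filling from functions on the two pieces -/
theorem exists_lift {Z : Type*} [TopologicalSpace Z] {gE : T.exterior → Z} {gV : FillingTorus → Z}
    (cE : Continuous gE) (cV : Continuous gV) (h : ∀ z, gE (bE T z) = gV (bV σ z)) :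
    ∃ g : SlopeFilling T σ → Z, Continuous g ∧ (∀ e, g (inE T σ e) = gE e) ∧
      ∀ w, g (inV T σ w) = gV w := by
  refine ⟨Quot.lift (Sum.elim gE gV) ?_, continuous_quot_lift _ (cE.sumElim cV), fun _ => rfl,
    fun _ => rfl⟩
  rintro _ _ ⟨x, y⟩
  have := h (x ^ σ.q * y ^ σ.b, x ^ σ.p * y ^ σ.a)
  rw [bV_xy] at this
  exact this.symm

theorem fill_cases (y : SlopeFilling T σ) : (∃ e, y = inE T σ e) ∨ ∃ w, y = inV T σ w := by
  obtain ⟨a | a⟩ := y
  · exact Or.inl ⟨a, rfl⟩
  · exact Or.inr ⟨a, rfl⟩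

theorem isClosed_exterior : IsClosed T.exterior :=
  (T.isOpenEmbedding.isOpenMap _ (isOpen_univ.prod isOpen_ball)).isClosed_compl

theorem isClosed_tube : IsClosed T.tube :=
  ((isCompact_univ.prod (isCompact_closedBall _ _)).image T.isOpenEmbedding.continuous).isClosed

theorem ext_union_tube : T.exterior ∪ T.tube = univ := by
  refine eq_univ_of_forall fun x => ?_
  by_cases hx : x ∈ T.exterior
  · exact Or.inl hx
  · exact Or.inr (image_mono (prod_mono le_rfl ball_subset_closedBall) (not_not.1 hx))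

theorem mem_inter {x : S3} (h1 : x ∈ T.exterior) (h2 : x ∈ T.tube) : ∃ z, (bE T z : S3) = x := by
  obtain ⟨⟨u, w⟩, ⟨-, hw⟩, rfl⟩ := h2
  have h3 : ‖w‖ = 1 := by
    refine le_antisymm (mem_closedBall_zero_iff.1 hw) (not_lt.1 fun h => h1 ?_)
    exact ⟨(u, w), ⟨mem_univ _, mem_ball_zero_iff.2 h⟩, rfl⟩
  exact ⟨(u, ⟨w, mem_sphere_zero_iff_norm.2 h3⟩), rfl⟩

/-- the closed tube, parametrised by the solid torus -/
def tb (w : FillingTorus) : S3 := T.τ (w.2, w.1)

theorem continuous_tb : Continuous (tb T) := T.isOpenEmbedding.continuous.comp (by fun_prop)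

theorem tb_mem (w : FillingTorus) : tb T w ∈ T.tube := ⟨(w.2, w.1), ⟨mem_univ _, w.1.2⟩, rfl⟩

theorem tb_bd (z : Circle × Circle) : tb T (bd z.2, z.1) = bE T z := rfl

theorem exists_ext_emb {A B Z : Type*} [TopologicalSpace A] [CompactSpace A] [MetricSpace B]
    [NormedAddCommGroup Z] [NormedSpace ℂ Z] [FiniteDimensional ℂ Z] {e : A → B} (he : Continuous e)
    (hi : Injective e) {g : A → Z} (hg : Continuous g) :
    ∃ G : B → Z, Continuous G ∧ ∀ a, G (e a) = g a := by
  have : TietzeExtension Z := TietzeExtension.of_tvs ℂ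
  obtain ⟨G, hG⟩ := ContinuousMap.exists_extension (he.isClosedEmbedding hi) ⟨g, hg⟩
  exact ⟨G, G.continuous, fun a => DFunLike.congr_fun hG a⟩

/-- the clutching type of a line on the filling -/
def HasType (P : SlopeFilling T σ → V →L[ℂ] V) (j : ℤ) : Prop :=
  ∃ (sE : T.exterior → V) (sV : FillingTorus → V),
    IsFrame (fun e => P (inE T σ e)) sE univ ∧ IsFrame (fun w => P (inV T σ w)) sV univ ∧
    ∀ z : Circle × Circle, sE (bE T z) = ((z.1 : ℂ) ^ j) • sV (bV σ z)

variable {T σ} {P : SlopeFilling T σ → V →L[ℂ] V}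

/-- a unit with a logarithm on the torus does not change the type -/
theorem HasType.of_log {j : ℤ} {sE : T.exterior → V} {sV : FillingTorus → V}
    (hE : IsFrame (fun e => P (inE T σ e)) sE univ) (hV : IsFrame (fun w => P (inV T σ w)) sV univ)
    {φ : Circle × Circle → ℂ} (hl : HasLog (fun z => φ z * ((z.1 : ℂ) ^ j)⁻¹) univ)
    (h : ∀ z, sE (bE T z) = φ z • sV (bV σ z)) : HasType T σ P j := by
  obtain ⟨ψ, c1, e1⟩ := hl
  obtain ⟨Ψ, c2, e2⟩ := exists_ext_emb (continuous_bV σ) (bV_injective σ) (continuousOn_univ.1 c1)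
  refine ⟨sE, _, hE, hV.smul (φ := fun w => exp (Ψ w)) (by fun_prop) fun _ _ => exp_ne_zero _,
    fun z => ?_⟩
  have h1 : φ z * ((z.1 : ℂ) ^ j)⁻¹ = exp (ψ z) := e1 z (mem_univ _)
  have h2 : (z.1 : ℂ) ^ j ≠ 0 := zpow_ne_zero _ z.1.coe_ne_zero
  rw [h, e2, ← h1, smul_smul, mul_comm (φ z), ← mul_assoc, mul_inv_cancel₀ h2, one_mul]

/-- **every line on a filling has a type** -/
theorem exists_type [FiniteDimensional ℂ V] (hP : IsLine P univ) : ∃ j, HasType T σ P j := by
  classical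
  have lV : IsLine (fun w => P (inV T σ w)) univ :=
    hP.comp (continuous_inV T σ).continuousOn (mapsTo_univ _ _)
  have lE : IsLine (fun e => P (inE T σ e)) univ :=
    hP.comp (continuous_inE T σ).continuousOn (mapsTo_univ _ _)
  obtain ⟨sV, hV⟩ := frame_solid lV
  obtain ⟨l, cl, el⟩ := lV.coframe hV
  have cb : Continuous fun z => (bE T z : S3) := continuous_subtype_val.comp (continuous_bE T)
  obtain ⟨s1, cs1, es1⟩ := exists_ext_emb cb (bE_injective T)
    ((continuousOn_univ.1 hV.cont).comp (continuous_bV σ))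
  obtain ⟨l1, cl1, el1⟩ := exists_ext_emb cb (bE_injective T)
    ((continuousOn_univ.1 cl).comp (continuous_bV σ))
  simp only [comp_apply] at es1 el1
  have a1 : ∀ z, l1 (bE T z) (s1 (bE T z)) = 1 := fun z => by
    rw [es1, el1]
    have := el (bV σ z) (mem_univ _) (sV (bV σ z))
    rw [hV.sec _ (mem_univ _)] at this
    exact (smul_left_injective ℂ (hV.ne _ (mem_univ _)) ((one_smul ℂ _).trans this)).symm
  let r : S3 → ℝ := fun x => infDist x T.exterior
  have cr : Continuous r := continuous_infDist_pt _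
  have r0 : ∀ x ∈ T.exterior, r x = 0 := fun x hx => infDist_zero_of_mem hx
  have rp : ∀ x ∉ T.exterior, 0 < r x := fun x hx =>
    ((isClosed_exterior T).notMem_iff_infDist_pos ⟨_, (bE T (1, 1)).2⟩).1 hx
  let a : S3 → ℂ := fun x => l1 x (s1 x)
  have ca : Continuous a := cl1.clm_apply cs1
  let d : S3 → ℂ := fun x => (starRingEnd ℂ) (a x) * a x + r x * r x
  have cd : Continuous d := by fun_prop
  have d0' : ∀ x ∈ T.tube, d x ≠ 0 := fun x hx => by
    by_cases hx' : x ∈ T.exterior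
    · obtain ⟨z, rfl⟩ := mem_inter T hx' hx
      simp [d, a, a1, r0 _ hx']
    · have h1 : d x = ((normSq (a x) + r x * r x : ℝ) : ℂ) := by
        simp [d, normSq_eq_conj_mul_self]
      rw [h1, ofReal_ne_zero]
      have := normSq_nonneg (a x)
      have := rp x hx'
      positivity
  let s2 : S3 → V × ℂ := fun x => (s1 x, (r x : ℂ))
  let l2 : S3 → V × ℂ →L[ℂ] ℂ := fun x => (d x)⁻¹ •
    ((starRingEnd ℂ) (a x) • (l1 x).comp (ContinuousLinearMap.fst ℂ V ℂ) +
      (r x : ℂ) • ContinuousLinearMap.snd ℂ V ℂ)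
  have cs2 : Continuous s2 := by fun_prop
  have cl2 : ContinuousOn l2 T.tube := by
    refine (cd.continuousOn.inv₀ d0').smul (Continuous.continuousOn (Continuous.add ?_ ?_))
    · exact (continuous_conj.comp ca).smul (cl1.clm_comp continuous_const)
    · exact (continuous_ofReal.comp cr).smul continuous_const
  obtain ⟨lQ, fQ⟩ := isLine_smulRight cs2.continuousOn cl2 fun x hx => by
    simp only [l2, s2, _root_.smul_apply, _root_.add_apply,
      ContinuousLinearMap.comp_apply, ContinuousLinearMap.coe_fst', ContinuousLinearMap.coe_snd',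
      smul_eq_mul]
    exact inv_mul_cancel₀ (d0' x hx)
  let up : (V →L[ℂ] V) → V × ℂ →L[ℂ] V × ℂ := fun A =>
    (ContinuousLinearMap.inl ℂ V ℂ).comp (A.comp (ContinuousLinearMap.fst ℂ V ℂ))
  have cup : Continuous up := continuous_const.clm_comp (continuous_id.clm_comp continuous_const)
  have up_apply : ∀ A (w : V × ℂ), up A w = (A w.1, 0) := fun _ _ => rfl
  let R : S3 → V × ℂ →L[ℂ] V × ℂ := fun x =>
    if hx : x ∈ T.exterior then up (P (inE T σ ⟨x, hx⟩)) else (l2 x).smulRight (s2 x)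
  have RE : ∀ e : T.exterior, R e = up (P (inE T σ e)) := fun e => dif_pos e.2
  have RT : ∀ x ∈ T.tube, R x = (l2 x).smulRight (s2 x) := fun x hx => by
    by_cases hx' : x ∈ T.exterior
    · obtain ⟨z, rfl⟩ := mem_inter T hx' hx
      rw [RE, inE_bE]
      refine ContinuousLinearMap.ext fun w => ?_
      rw [up_apply, el _ (mem_univ _)]
      have a2 := a1 z
      rw [es1, el1] at a2
      simp [l2, s2, d, a, a2, r0 _ hx', es1, el1]
    · exact dif_neg hx'
  have lRE : IsLine R T.exterior := by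
    refine ⟨?_, fun x hx v => ?_, fun x hx => ?_⟩
    · rw [continuousOn_iff_continuous_domRestrict]
      exact (cup.comp (continuousOn_univ.1 lE.cont)).congr fun e => (RE e).symm
    · rw [RE ⟨x, hx⟩, up_apply, up_apply, lE.idem _ (mem_univ _)]
    · obtain ⟨e, h1, h2, h3⟩ := lE.rank ⟨x, hx⟩ (mem_univ _)
      rw [RE ⟨x, hx⟩]
      refine ⟨(e, 0), fun h => h1 (congrArg Prod.fst h), by rw [up_apply, h2], fun v hv => ?_⟩
      rw [up_apply] at hv
      obtain ⟨c, hc⟩ := h3 v.1 (congrArg Prod.fst hv)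
      exact ⟨c, Prod.ext hc (by simpa using (congrArg Prod.snd hv).symm)⟩
  have lRT : IsLine R T.tube := lQ.congr RT
  have lR : IsLine R univ := by
    rw [← ext_union_tube T]
    exact ⟨lRE.cont.union_of_isClosed lRT.cont (isClosed_exterior T) (isClosed_tube T),
      fun x hx => hx.elim (lRE.idem x) (lRT.idem x), fun x hx => hx.elim (lRE.rank x) (lRT.rank x)⟩
  obtain ⟨s, hs⟩ := frame_sphere (Or.inr (by simp)) lR
  obtain ⟨φ, c1, n1, e1⟩ := lRT.ratio (fQ.congr RT fun _ _ => rfl) (hs.mono (subset_univ _))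
  have hsE : ∀ e : T.exterior, (P (inE T σ e) (s e).1, (0 : ℂ)) = s e := fun e => by
    rw [← up_apply, ← RE, hs.sec _ (mem_univ _)]
  have hE : IsFrame (fun e => P (inE T σ e)) (fun e => (s e).1) univ :=
    ⟨(continuous_fst.comp ((continuousOn_univ.1 hs.cont).comp continuous_subtype_val)).continuousOn,
      fun e _ => congrArg Prod.fst (hsE e), fun e _ h0 => hs.ne e (mem_univ _) (by
        rw [← hsE e, h0, map_zero]; rfl)⟩
  obtain ⟨j, hj⟩ := exists_deg_solid (φ := fun w => φ (tb T w))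
    (c1.comp_continuous (continuous_tb T) (tb_mem T)) fun w => n1 _ (tb_mem T w)
  refine ⟨j, HasType.of_log hE hV (φ := fun z => φ (bE T z)) ?_ fun z => ?_⟩
  · exact hj.comp (g := fun z : Circle × Circle => (bd z.2, z.1)) (T := univ)
      ((continuous_bd.comp continuous_snd).prodMk continuous_fst).continuousOn (mapsTo_univ _ _)
  · have := congrArg Prod.fst (e1 _ (tb_mem T (bd z.2, z.1)))
    rw [tb_bd] at this
    rw [this, ← es1]
    rfl

/-- type zero: a global frame -/
theorem HasType.frame (h : HasType T σ P 0) : ∃ s, IsFrame P s univ := by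
  obtain ⟨sE, sV, hE, hV, h⟩ := h
  obtain ⟨s, c, eE, eV⟩ := exists_lift T σ (continuousOn_univ.1 hE.cont)
    (continuousOn_univ.1 hV.cont) fun z => by simpa using h z
  refine ⟨s, c.continuousOn, fun y _ => ?_, fun y _ => ?_⟩
  · rcases fill_cases T σ y with ⟨e, rfl⟩ | ⟨w, rfl⟩
    · rw [eE]; exact hE.sec _ (mem_univ _)
    · rw [eV]; exact hV.sec _ (mem_univ _)
  · rcases fill_cases T σ y with ⟨e, rfl⟩ | ⟨w, rfl⟩
    · rw [eE]; exact hE.ne _ (mem_univ _)
    · rw [eV]; exact hV.ne _ (mem_univ _)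

theorem HasType.of_frame {s : SlopeFilling T σ → V} (h : IsFrame P s univ) : HasType T σ P 0 :=
  ⟨_, _, h.comp (continuous_inE T σ).continuousOn (mapsTo_univ _ _),
    h.comp (continuous_inV T σ).continuousOn (mapsTo_univ _ _), fun z => by simp [inE_bE T σ]⟩

/-- a Seifert map: a nowhere zero function on the exterior which is the meridional coordinate on
the boundary torus up to a logarithm -/
structure IsSeif (T : ThickKnot) (θ : T.exterior → ℂ) : Prop where
  cont : Continuous θ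
  ne : ∀ e, θ e ≠ 0
  bdry : HasLog (fun z : Circle × Circle => θ (bE T z) * ((z.2 : ℂ))⁻¹) univ

theorem HasLog.zpow {X : Type*} [TopologicalSpace X] {φ : X → ℂ} {S : Set X} (h : HasLog φ S)
    (k : ℤ) : HasLog (fun x => φ x ^ k) S := by
  obtain ⟨ψ, h1, h2⟩ := h
  exact ⟨fun x => k * ψ x, continuousOn_const.mul h1, fun x hx => by
    simp only [h2 x hx, exp_int_mul]⟩

theorem coe_bV_snd (z : Circle × Circle) :
    ((bV σ z).2 : ℂ) = (z.1 : ℂ) ^ (-σ.p) * (z.2 : ℂ) ^ σ.q := by
  simp [bV]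

/-- the type can be changed by multiples of `p` -/
theorem HasType.add_mul {θ : T.exterior → ℂ} (hθ : IsSeif T θ) {j : ℤ} (h : HasType T σ P j)
    (k : ℤ) : HasType T σ P (j + k * σ.p) := by
  obtain ⟨sE, sV, hE, hV, h⟩ := h
  have n1 : ∀ (u : Circle) (j : ℤ), (u : ℂ) ^ j ≠ 0 := fun u j => zpow_ne_zero _ u.coe_ne_zero
  refine HasType.of_log (hE.smul (φ := fun e => θ e ^ (σ.q * k))
      (hθ.cont.zpow₀ _ fun e => Or.inl (hθ.ne e)).continuousOn fun e _ => zpow_ne_zero _ (hθ.ne e))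
    (hV.smul (φ := fun w => (w.2 : ℂ) ^ k)
      ((continuous_circle_zpow k).comp continuous_snd).continuousOn fun w _ => n1 _ _)
    (φ := fun z => (θ (bE T z) * ((z.2 : ℂ))⁻¹) ^ (σ.q * k) * (z.1 : ℂ) ^ (j + k * σ.p)) ?_
    fun z => ?_
  · exact (hθ.bdry.zpow (σ.q * k)).congr fun z _ => mul_inv_cancel_right₀ (n1 _ _) _
  · rw [h, smul_smul, smul_smul, coe_bV_snd]
    congr 1
    have h1 := z.1.coe_ne_zero
    have h2 := z.2.coe_ne_zero
    rw [mul_zpow, mul_zpow, inv_zpow', ← zpow_mul, ← zpow_mul, zpow_add₀ h1, neg_mul, zpow_neg,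
      zpow_neg, mul_comm σ.p k]
    field_simp

/-- a unit on the exterior has degree zero along the Seifert longitude -/
theorem IsSeif.deg {θ : T.exterior → ℂ} (hθ : IsSeif T θ) {α : T.exterior → ℂ} (cα : Continuous α)
    (nα : ∀ e, α e ≠ 0) :
    ∃ d : ℤ, HasLog (fun z : Circle × Circle => α (bE T z) * ((z.2 : ℂ) ^ d)⁻¹) univ := by
  classical
  have n1 : ∀ (u : Circle) (j : ℤ), (u : ℂ) ^ j ≠ 0 := fun u j => zpow_ne_zero _ u.coe_ne_zero
  obtain ⟨c, d, hcd⟩ := exists_deg_torus (cα.comp (continuous_bE T)) fun z => nα _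
  suffices hc : c = 0 from ⟨d, hcd.congr fun z _ => by simp [hc]⟩
  -- `α θ^(-d) u^(-c)` has a logarithm `ψ` on the torus
  obtain ⟨ψ, c1, e1⟩ := hcd.mul (hθ.bdry.zpow d).inv
  have hi : Injective fun z : Circle × Circle => ((bd z.2, z.1) : FillingTorus) := fun z z' h =>
    Prod.ext (congrArg Prod.snd h) (bd_injective (congrArg Prod.fst h))
  obtain ⟨Ψ, c2, e2⟩ := exists_ext_emb
    ((continuous_bd.comp continuous_snd).prodMk continuous_fst) hi (continuousOn_univ.1 c1)
  have htb : Injective (tb T) := fun w w' h => by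
    have := T.isOpenEmbedding.injective h
    simp only [Prod.mk.injEq] at this
    exact Prod.ext (Subtype.ext this.2) this.1
  obtain ⟨G, c3, e3⟩ := exists_ext_emb (continuous_tb T) htb
    (g := fun w => (w.2 : ℂ) ^ c * exp (Ψ w))
    (((continuous_circle_zpow c).comp continuous_snd).mul (by fun_prop))
  let F : S3 → ℂ := fun x => if hx : x ∈ T.exterior then α ⟨x, hx⟩ * (θ ⟨x, hx⟩ ^ d)⁻¹ else G x
  have FE : ∀ e : T.exterior, F e = α e * (θ e ^ d)⁻¹ := fun e => dif_pos e.2
  have FT : ∀ x ∈ T.tube, F x = G x := fun x hx => by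
    by_cases hx' : x ∈ T.exterior
    · obtain ⟨z, rfl⟩ := mem_inter T hx' hx
      have h1 : α (bE T z) * ((z.1 : ℂ) ^ c * (z.2 : ℂ) ^ d)⁻¹ *
          ((θ (bE T z) * ((z.2 : ℂ))⁻¹) ^ d)⁻¹ = exp (ψ z) := e1 z (mem_univ _)
      have h2 : Ψ (bd z.2, z.1) = ψ z := e2 z
      rw [FE, ← tb_bd, e3, h2, ← h1, mul_zpow, inv_zpow]
      have := n1 z.1 c
      have := n1 z.2 d
      have := zpow_ne_zero d (hθ.ne (bE T z))
      field_simp
    · exact dif_neg hx'
  have Ftb : ∀ w, F (tb T w) = (w.2 : ℂ) ^ c * exp (Ψ w) := fun w => by rw [FT _ (tb_mem T w), e3]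
  have cF : Continuous F := by
    rw [← continuousOn_univ, ← ext_union_tube T]
    refine ContinuousOn.union_of_isClosed ?_ (c3.continuousOn.congr FT) (isClosed_exterior T)
      (isClosed_tube T)
    rw [continuousOn_iff_continuous_domRestrict]
    exact (cα.mul ((hθ.cont.zpow₀ _ fun e => Or.inl (hθ.ne e)).inv₀
      fun e => zpow_ne_zero _ (hθ.ne e))).congr fun e => (FE e).symm
  have nF : ∀ x, F x ≠ 0 := fun x => by
    rcases (ext_union_tube T ▸ mem_univ x : x ∈ T.exterior ∪ T.tube) with hx | hx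
    · rw [FE ⟨x, hx⟩]
      exact mul_ne_zero (nα _) (inv_ne_zero (zpow_ne_zero _ (hθ.ne _)))
    · obtain ⟨⟨u, w⟩, ⟨-, hw⟩, rfl⟩ := hx
      have := Ftb (⟨w, hw⟩, u)
      rw [show T.τ (u, w) = tb T (⟨w, hw⟩, u) from rfl, this]
      exact mul_ne_zero (n1 _ _) (exp_ne_zero _)
  have l1 := (hasLog_sphere (by simp) cF nF).comp (g := fun u : Circle => tb T (d0, u)) (T := univ)
    ((continuous_tb T).comp (by fun_prop)).continuousOn (mapsTo_univ _ _)
  have l2 : HasLog (fun u : Circle => exp (Ψ (d0, u))) univ :=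
    ⟨fun u => Ψ (d0, u), by fun_prop, fun _ _ => rfl⟩
  exact deg_unique ((l1.mul l2.inv).congr fun u _ => by
    rw [Ftb, mul_inv_cancel_right₀ (exp_ne_zero _)])

/-- two types of one line are congruent modulo `p` -/
theorem HasType.dvd_sub {θ : T.exterior → ℂ} (hθ : IsSeif T θ) (hP : IsLine P univ) {j j' : ℤ}
    (h : HasType T σ P j) (h' : HasType T σ P j') : σ.p ∣ j - j' := by
  obtain ⟨sE, sV, hE, hV, h⟩ := h
  obtain ⟨sE', sV', hE', hV', h'⟩ := h'
  have n1 : ∀ (u : Circle) (j : ℤ), (u : ℂ) ^ j ≠ 0 := fun u j => zpow_ne_zero _ u.coe_ne_zero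
  obtain ⟨α, cα, nα, eα⟩ := (hP.comp (continuous_inE T σ).continuousOn (mapsTo_univ _ _)).ratio hE hE'
  obtain ⟨β, cβ, nβ, eβ⟩ := (hP.comp (continuous_inV T σ).continuousOn (mapsTo_univ _ _)).ratio hV hV'
  obtain ⟨d, hd⟩ := hθ.deg (continuousOn_univ.1 cα) fun e => nα e (mem_univ _)
  obtain ⟨m, hm⟩ := exists_deg_solid (continuousOn_univ.1 cβ) fun e => nβ e (mem_univ _)
  have hm' := hm.comp (g := bV σ) (T := univ) (continuous_bV σ).continuousOn (mapsTo_univ _ _)
  have key : ∀ z : Circle × Circle, α (bE T z) * (z.1 : ℂ) ^ j = (z.1 : ℂ) ^ j' * β (bV σ z) := by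
    intro z
    have h1 := h' z
    rw [eα _ (mem_univ _), eβ _ (mem_univ _), h, smul_smul, smul_smul] at h1
    exact smul_left_injective ℂ (hV.ne _ (mem_univ _)) h1
  have l : HasLog (fun z : Circle × Circle =>
      (z.1 : ℂ) ^ (j - j' + σ.p * m) * (z.2 : ℂ) ^ (d - σ.q * m)) univ := by
    refine (hm'.mul hd.inv).congr fun z _ => ?_
    have h1 := z.1.coe_ne_zero
    have h2 := z.2.coe_ne_zero
    have h3 : β (bV σ z) = α (bE T z) * (z.1 : ℂ) ^ j * ((z.1 : ℂ) ^ j')⁻¹ := by
      rw [key, mul_comm, ← mul_assoc, inv_mul_cancel₀ (n1 _ _), one_mul]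
    have h4 := nα (bE T z) (mem_univ _)
    rw [coe_bV_snd, h3, mul_zpow, ← zpow_mul, ← zpow_mul, zpow_add₀ h1, zpow_sub₀ h1, zpow_sub₀ h2,
      neg_mul, zpow_neg]
    have := n1 z.1 j'
    have := n1 z.1 (σ.p * m)
    have := n1 z.2 (σ.q * m)
    have := n1 z.2 d
    field_simp
  exact ⟨-m, by linear_combination (deg_unique_torus l).1⟩

/-- a line is trivial iff `p` divides its type -/
theorem HasType.frame_iff {θ : T.exterior → ℂ} (hθ : IsSeif T θ) (hP : IsLine P univ) {j : ℤ}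
    (h : HasType T σ P j) : (∃ s, IsFrame P s univ) ↔ σ.p ∣ j := by
  constructor
  · rintro ⟨s, hs⟩
    simpa using h.dvd_sub hθ hP (HasType.of_frame hs)
  · rintro ⟨k, rfl⟩
    have := h.add_mul hθ (-k)
    rw [show σ.p * k + -k * σ.p = 0 by ring] at this
    exact this.frame

theorem HasType.of_dvd_sub {θ : T.exterior → ℂ} (hθ : IsSeif T θ) {j j' : ℤ}
    (h : HasType T σ P j) (hd : σ.p ∣ j' - j) : HasType T σ P j' := by
  obtain ⟨k, hk⟩ := hd
  have := h.add_mul hθ k
  rwa [show j + k * σ.p = j' by linear_combination -hk] at this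

end

end Crest.Agent.X212.Pic56
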